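import Vale.Agent.P313.H296.Shell

/-!
Assembly of the final machine for a promise problem.
-/

namespace Vale.Agent.P313.CT

open Finset

open Classical in
/-- ASSEMBLY WITH A PROMISE. `B`, `w`, `L` are the parameters of the environment, `st x j s` is
static digit `j` for seed `s`, `NS x` is the number of seeds. If for more than half of the seeds the
program restores the tape and the value of the top level at the query `q0 x` is larger than `thr x`
if and only if `b`, then `x` is in the language if and only if `b`. -/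
theorem assembleP {p : CP} (hp : p.Ok)
    {B w L top q0 thr NS : List Bool → ℕ} {st : List Bool → ℕ → ℕ → ℕ}
    (hB : P313.LF (fun x _ => B x : P313.Fn 0)) (hw : P313.LF (fun x _ => w x : P313.Fn 0))
    (hL : P313.LF (fun x _ => L x : P313.Fn 0)) (htop : P313.LF (fun x _ => top x : P313.Fn 0))
    (hq0 : P313.LF (fun x _ => q0 x : P313.Fn 0)) (hthr : P313.LF (fun x _ => thr x : P313.Fn 0))
    (hst : P313.LF (fun x a => st x (a 0) (a 1) : P313.Fn 2))
    (hNS : P313.LF (fun x a => min (NS x) (a 0 + 1) : P313.Fn 1))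
    (h1w : ∀ x, 1 ≤ w x) (htopB : ∀ x, top x ≤ B x) (hq0B : ∀ x, q0 x ≤ B x)
    {S : ℕ → ℝ} (hS0 : ∀ n, 0 ≤ S n) {c1 : ℕ}
    (hS1 : ∀ x, (Nat.log 2 (NS x) : ℝ) ≤ c1 * S x.length + c1)
    (hS2 : ∀ x, ((L x * (Nat.log 2 (w x) + 1) : ℕ) : ℝ) ≤ c1 * S x.length + c1)
    (hS3 : ∀ x, (((top x + 1) * (Nat.log 2 (x.length + B x + 2) + 1) : ℕ) : ℝ) ≤
      c1 * S x.length + c1) :
    ∃ (A : Set (List Bool)) (D : RTM) (c : ℕ), D.Decides A (fun n => (2 : ℝ) ^ (c * S n + c))
      (fun n => c * S n + c) ∧ ∀ (x : List Bool) (b : Prop),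
      NS x < 2 * #{s ∈ range (NS x) | Restores (envS B w L st x s) p (top x) ∧
      (thr x < val (envS B w L st x s) p (top x) (q0 x) (fun _ => 0) ↔ b)} → (x ∈ A ↔ b) := by
  obtain ⟨c, heng⟩ := engine p hp
  let e : EnvC 2 := ⟨fun x _ => B x, fun x _ => w x, fun x _ => L x, fun x b => st x (b 0) (b 1)⟩
  have he : e.Ok := by
    refine ⟨hB.weak.weak, hw.weak.weak, hL.weak.weak, ?_⟩
    have h2 := LF.comp (k := 3) (m := 2) (f := fun x a => st x (a 0) (a 1))
      (g := ![fun _ b => b 0, fun _ b => b 1]) hst (fun i => by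
        refine Fin.cases ?_ (fun j => ?_) i
        · exact LF.proj (k := 3) 0
        · refine Fin.cases ?_ (fun j => ?_) j
          · exact LF.proj (k := 3) 1
          · exact j.elim0)
    exact h2
  obtain ⟨G, hG, -, hval⟩ := heng 2 e (fun x _ => top x) (fun x _ => q0 x) (fun _ a => a 1) he
    htop.weak.weak hq0.weak.weak (LF.proj 1)
  let F : P313.Fn 1 := fun x a => ind (min (NS x) (a 0 + 1) <
    2 * ∑ s ∈ range (min (NS x) (a 0 + 1)), ind (thr x < G x (Fin.cons s a)))
  have hthr2 : P313.LF (fun x _ => thr x : P313.Fn 2) := hthr.weak.weak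
  have hsum : P313.LF (fun x a =>
      ∑ s ∈ range (min (NS x) (a 0 + 1)), ind (thr x < G x (Fin.cons s a)) : P313.Fn 1) :=
    LF.sum (k := 1) (f := fun x b => ind (thr x < G x b)) (LFP.lt hthr2 hG) hNS
  have hF : P313.LF F := LFP.lt hNS ((LF.const 2).mul hsum)
  let R : List Bool → ℕ := fun x => x.length + B x + 2
  have hR1 : P313.LF (fun x _ => R x : P313.Fn 1) := (LF.len.add hB.weak).add (LF.const 2)
  have hw1 : P313.LF (fun x _ => w x : P313.Fn 1) := hw.weak
  have hL1 : P313.LF (fun x _ => L x : P313.Fn 1) := hL.weak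
  have htop1 : P313.LF (fun x _ => top x : P313.Fn 1) := htop.weak
  let g : P313.Fn 1 := fun x a => ind (min (NS x) (a 0 + 1) ≤ a 0 ∧
    min (w x ^ L x) (a 0 + 1) * min (R x ^ (c * (top x + 1))) (a 0 + 1) ≤ a 0)
  have hg : P313.LF g := by
    refine LFP.and (LFP.le hNS (LF.proj 0)) (LFP.le (LF.mul ?_ ?_) (LF.proj 0))
    · exact LF.powMin hw1 hL1 (LF.proj 0)
    · exact LF.powMin hR1 ((LF.const c).mul htop1.succ) (LF.proj 0)
  have hR2 : ∀ x, 2 ≤ R x := fun x => by simp only [R]; omega
  have hgiff : ∀ x m, g x (fun _ => m) ≠ 0 ↔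
      max (NS x) (w x ^ L x * R x ^ (c * (top x + 1))) ≤ m := by
    intro x m
    simp only [g]
    rw [ind_ne_zero, min_mul_min_le (Nat.one_le_pow _ _ (h1w x))
      (Nat.one_le_pow _ _ (by have := hR2 x; omega))]
    omega
  let Nx : List Bool → ℕ := fun x => max (NS x) (w x ^ L x * R x ^ (c * (top x + 1)))
  have hdec : ∃ (D : RTM) (e : ℕ), D.Decides {x | F x (fun _ => Nx x) ≠ 0}
      (fun n => (2 : ℝ) ^ (e * S n + e)) (fun n => e * S n + e) := by
   refine pad_decides_real hF hg hS0 (c := (3 + c) * c1 + 3) (fun x => ?_)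
   set N := max (NS x) (w x ^ L x * R x ^ (c * (top x + 1))) with hN
   refine ⟨N, fun m hm => ?_, (hgiff x N).2 le_rfl, ?_, Iff.rfl⟩
   · by_contra h
     have := (hgiff x m).1 h
     omega
   · have hN1 : 1 ≤ N := by
       have h2 : 1 ≤ w x ^ L x * R x ^ (c * (top x + 1)) :=
         Nat.mul_pos (Nat.pow_pos (h1w x)) (Nat.pow_pos (by have := hR2 x; omega))
       omega
     have h3 : x.length + N + 2 ≤ 2 * (R x * N) := by
       have h4 : x.length + 2 ≤ R x := by simp only [R]; omega
       have h5 : R x ≤ R x * N := Nat.le_mul_of_pos_right _ hN1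
       have h6 : N ≤ R x * N := Nat.le_mul_of_pos_left _ (by have := hR2 x; omega)
       omega
     have h4 : Nat.log 2 (x.length + N + 2) ≤ 1 + 1 + (Nat.log 2 (R x) + 1 + Nat.log 2 N) := by
       refine (Nat.log_mono_right h3).trans ((log_mul_le _ _).trans ?_)
       have h5 : Nat.log 2 2 = 1 := by
         have := Nat.log_pow (b := 2) (by norm_num) 1
         simpa using this
       rw [h5]
       exact Nat.add_le_add_left (log_mul_le _ _) _
     have h5 : Nat.log 2 N ≤ Nat.log 2 (NS x) + (L x * (Nat.log 2 (w x) + 1) + 1 +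
         c * (top x + 1) * (Nat.log 2 (R x) + 1)) := by
       have h6 : Nat.log 2 (w x ^ L x * R x ^ (c * (top x + 1))) ≤
           L x * (Nat.log 2 (w x) + 1) + 1 + c * (top x + 1) * (Nat.log 2 (R x) + 1) :=
         (log_mul_le _ _).trans (Nat.add_le_add (Nat.add_le_add_right (log_pow_le _ _) 1)
           (log_pow_le _ _))
       rcases le_total (NS x) (w x ^ L x * R x ^ (c * (top x + 1))) with h7 | h7
       · rw [hN, max_eq_right h7]
         exact h6.trans (Nat.le_add_left _ _)
       · rw [hN, max_eq_left h7]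
         exact Nat.le_add_right _ _
     have h6 : Nat.log 2 (R x) + 1 ≤ (top x + 1) * (Nat.log 2 (R x) + 1) :=
       Nat.le_mul_of_pos_left _ (by omega)
     have h7 : Nat.log 2 (x.length + N + 2) ≤ Nat.log 2 (NS x) + L x * (Nat.log 2 (w x) + 1) +
         (1 + c) * ((top x + 1) * (Nat.log 2 (R x) + 1)) + 3 := by
       have h8 : c * (top x + 1) * (Nat.log 2 (R x) + 1) =
         c * ((top x + 1) * (Nat.log 2 (R x) + 1)) := by ring
       have h9 : (1 + c) * ((top x + 1) * (Nat.log 2 (R x) + 1)) =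
         (top x + 1) * (Nat.log 2 (R x) + 1) + c * ((top x + 1) * (Nat.log 2 (R x) + 1)) := by
         ring
       rw [h9]
       rw [h8] at h5
       omega
     have h8 : (Nat.log 2 (x.length + N + 2) : ℝ) ≤ (Nat.log 2 (NS x) : ℝ) +
         ((L x * (Nat.log 2 (w x) + 1) : ℕ) : ℝ) +
         (1 + c) * (((top x + 1) * (Nat.log 2 (R x) + 1) : ℕ) : ℝ) + 3 := by
       exact_mod_cast h7
     have h9 := hS1 x
     have h10 := hS2 x
     have h11 : (((top x + 1) * (Nat.log 2 (R x) + 1) : ℕ) : ℝ) ≤ c1 * S x.length + c1 := hS3 x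
     have hc : (0 : ℝ) ≤ 1 + c := by positivity
     have h12 := mul_le_mul_of_nonneg_left h11 hc
     have h13 := hS0 x.length
     push_cast
     nlinarith
  obtain ⟨D, e', hD⟩ := hdec
  refine ⟨_, D, e', hD, fun x b hcard => ?_⟩
  rw [Set.mem_setOf_eq]
  set N := Nx x with hN
  · have hNSN : NS x ≤ N := le_max_left _ _
    have hWN : w x ^ L x * R x ^ (c * (top x + 1)) ≤ N := le_max_right _ _
    have hmin : min (NS x) (N + 1) = NS x := min_eq_left (by omega)
    simp only [F]
    rw [ind_ne_zero, hmin]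
    have hsum : ∑ s ∈ range (NS x), ind (thr x < G x (Fin.cons s fun _ => N)) =
        #{s ∈ range (NS x) | thr x < G x (Fin.cons s fun _ => N)} := by
      rw [card_filter]
      exact sum_congr rfl (fun s _ => ind_eq_ite _)
    rw [hsum]
    have hgood : ∀ s, (Restores (envS B w L st x s) p (top x) ∧
        (thr x < val (envS B w L st x s) p (top x) (q0 x) (fun _ => 0) ↔ b)) →
        (thr x < G x (Fin.cons s fun _ => N) ↔ b) := by
      intro s hs
      have := hval x (Fin.cons s fun _ => N) (h1w x) (htopB x) (hq0B x) hWN hs.1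
      rw [this]
      exact hs.2
    by_cases hx : b
    · refine iff_of_true ?_ hx
      refine hcard.trans_le (Nat.mul_le_mul_left 2 (card_le_card (fun s hs => ?_)))
      rw [mem_filter] at hs ⊢
      exact ⟨hs.1, (hgood s hs.2).2 hx⟩
    · refine iff_of_false (fun h => ?_) hx
      have hdis : Disjoint {s ∈ range (NS x) | thr x < G x (Fin.cons s fun _ => N)}
          {s ∈ range (NS x) | Restores (envS B w L st x s) p (top x) ∧
            (thr x < val (envS B w L st x s) p (top x) (q0 x) (fun _ => 0) ↔ b)} := by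
        rw [disjoint_left]
        intro s hs hs'
        rw [mem_filter] at hs hs'
        exact hx ((hgood s hs'.2).1 hs.2)
      have h14 := card_le_card (union_subset
        (filter_subset (fun s => thr x < G x (Fin.cons s fun _ => N)) (range (NS x)))
        (filter_subset (fun s => Restores (envS B w L st x s) p (top x) ∧
          (thr x < val (envS B w L st x s) p (top x) (q0 x) (fun _ => 0) ↔ b))
          (range (NS x))))
      rw [card_union_of_disjoint hdis, card_range] at h14
      omega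

end Vale.Agent.P313.CT
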