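import Vale.Agent.P313.H427L.Fin0
import Vale.Agent.P313.H899.Hyps
import Vale.Agent.P313.H974.Size
import Vale.Agent.P313.H931.MeanP
import Vale.Agent.P313.H931.Goal
import Vale.Agent.P313.H285.Goal
import Vale.Agent.P313.H427.BaseX

/-!
All hypotheses of the phases for the concrete parameters and a good seed; most seeds are good.
-/

namespace Vale.Agent.P313.ZL

open Finset BP H126 H427L
open H427 (statN statN_0 statN_1 statN_2 statN_3 statN_4 statN_5 statN_6 statN_7 statN_8
  statN_9 statN_10 statN_11 statN_12 statN_13 statN_14 statN_15 statN_16 statN_17 statN_18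
  statN_19 statN_20 statN_off statN_seed)
open Z (P_le_one)
open scoped Classical

variable {M : RTM} {c : Cf}

/-- The context of a seed. -/
noncomputable def CX (M : RTM) (c : Cf) (x : List Bool) (sd : ℕ) : H899.Ctx where
  p := parx M c x
  S := theSem (parx M c x)
  T := theTSem (parx M c x)
  cs := csx M c x
  o := oSd (parx M c x) sd
  w := wSd (parx M c x) sd

theorem CX_p (x : List Bool) (sd : ℕ) : (CX M c x sd).p = parx M c x := rfl

theorem CX_dt (x : List Bool) (sd s : ℕ) : (CX M c x sd).dt s =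
    data (parx M c x).toPar (theSem (parx M c x)) (csx M c x) (oSd (parx M c x) sd) s := rfl

/-- The environment is the right one. -/
theorem envOkX (x : List Bool) (sd : ℕ) : (CX M c x sd).EnvOk (envx M c x sd) where
  s0 := (envx_st x sd 0).trans (statN_0 (parx M c x) sd)
  s1 := (envx_st x sd 1).trans (statN_1 (parx M c x) sd)
  s2 := (envx_st x sd 2).trans (statN_2 (parx M c x) sd)
  s3 := (envx_st x sd 3).trans (statN_3 (parx M c x) sd)
  s4 := (envx_st x sd 4).trans (statN_4 (parx M c x) sd)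
  s5 := (envx_st x sd 5).trans (statN_5 (parx M c x) sd)
  s6 := (envx_st x sd 6).trans (statN_6 (parx M c x) sd)
  s7 := (envx_st x sd 7).trans (statN_7 (parx M c x) sd)
  s8 := (envx_st x sd 8).trans (statN_8 (parx M c x) sd)
  s9 := (envx_st x sd 9).trans (statN_9 (parx M c x) sd)
  s10 := (envx_st x sd 10).trans (statN_10 (parx M c x) sd)
  s11 := (envx_st x sd 11).trans (statN_11 (parx M c x) sd)
  s12 := (envx_st x sd 12).trans (statN_12 (parx M c x) sd)
  s13 := (envx_st x sd 13).trans (statN_13 (parx M c x) sd)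
  s14 := (envx_st x sd 14).trans (statN_14 (parx M c x) sd)
  s15 := (envx_st x sd 15).trans (statN_15 (parx M c x) sd)
  s16 := (envx_st x sd 16).trans (statN_16 (parx M c x) sd)
  s17 := (envx_st x sd 17).trans (statN_17 (parx M c x) sd)
  s18 := (envx_st x sd 18).trans (statN_18 (parx M c x) sd)
  s19 := (envx_st x sd 19).trans (statN_19 (parx M c x) sd)
  s20 := (envx_st x sd 20).trans (statN_20 (parx M c x) sd)
  off := fun s hs i hi => (envx_st x sd _).trans (statN_off (parx M c x) sd hs hi)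
  seed := fun i _ => (envx_st x sd _).trans (statN_seed (parx M c x) sd i)
  stB := fun j _ => by
    rw [envx_st, envx_B]
    exact statN_le x sd j
  w := envx_w x sd
  L := envx_L x sd

theorem offsX (x : List Bool) (sd : ℕ) :
    H974.Offs (parx M c x).toPar (oSd (parx M c x) sd) :=
  fun s i => (oSd_lt (D_pos' x) sd s i).le

/-- The hypotheses of the averages. -/
theorem num2X (x : List Bool) (sd : ℕ) : H931.Num2 (CX M c x sd) (envx M c x sd) where
  qpos := (q_prime x).pos
  Qpos := (Q_prime x).pos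
  rpos := (semNum x).r1
  Lampos := by
    change 0 < (parx M c x).Lam
    rw [(semNum x).lam]
    exact Nat.pow_pos (q_prime x).pos
  c0pos := smp_c0 x
  Lc := by
    change (parx M c x).L ≤ (parx M c x).DC * (parx M c x).c0
    rw [mul_comm]
    exact smp_L x
  DCB := by rw [envx_B]; exact DCB x
  sumB := by rw [envx_B]; exact sumB x
  cnt := fun s _ Z a _ v _ y _ z _ t _ => H931.cnt_le (parx M c x) _ Z a v y z t
  lo := fun s _ Z a _ y _ z _ t _ => H931.lo_le (parx M c x) _ Z a y z t

/-- MOST SEEDS ARE GOOD. -/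
theorem hcardX (x : List Bool) : 4 * ((range (nSd (parx M c x))).filter fun sd =>
    ¬ GoodSd (parx M c x) (theSem (parx M c x)) (theTSem (parx M c x)) (csx M c x) sd).card ≤
    nSd (parx M c x) := by
  have : Fact (parx M c x).Q.Prime := ⟨Q_prime x⟩
  have hmean := H931.meanOK (parx M c x)
    (VD := fun d => ∀ y < (parx M c x).n, d.c y ≤ (parx M c x).cmax) (fun d h => h)
  have e : (parx M c x).r * ((parx M c x).q ^ (parx M c x).cmax * (parx M c x).Lam ^ 2) =
      Bf M c x := by unfold Bf; ring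
  rw [e] at hmean
  refine card_bad_sd (semNum x).r1 hmean (D_pos' x) (k := (parx M c x).DC + 1) (smp_k x)
    (fun o ho s hs y hy => ?_) (epsx_pos x) (smp_del x) (smp_c0 x) (smp_L x) (smp_DQ x)
    (smp_N1 x) (smp_N2 x)
  exact (H974.c_le y s).trans ((Nat.add_le_add_left (le_of_lt hs) _).trans (bS_le x))

section bounded

variable (hM : M.Bounded (fun n => (n + 2) ^ c.c) (fun n => c.c * Nat.log 2 (n + 2)))
include hM

theorem csxOK (x : List Bool) : ∀ v, v + 1 < (parx M c x).n → ∀ b,
    csx M c x v b + 1 < (parx M c x).n :=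
  (CT.chain_ok hM x (n_ge (M := M) (c := c) x)).closed

theorem valX (x : List Bool) {o : ℕ → ℕ → ℕ} (ho : H974.Offs (parx M c x).toPar o) :
    ∀ s ≤ (parx M c x).S, H974.Val (parx M c x).toPar
      (data (parx M c x).toPar (theSem (parx M c x)) (csx M c x) o s) :=
  H974.data_val (numOK x) (semOKx x) ho (csxOK hM x) (runOK x).S1

theorem dtOkX (x : List Bool) (sd : ℕ) :
    ∀ s ≤ (CX M c x sd).p.S, (CX M c x sd).DtOk ((CX M c x sd).dt s) :=
  H899.dtOk_of (C := CX M c x sd) (numOK x) (semOKx x) (offsX x sd) (csxOK hM x) (runOK x).S1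
    (bS_le x)

theorem gzX (x : List Bool) (sd : ℕ) {s : ℕ} (hs : s < (parx M c x).S) (j : ℕ) {v y : ℕ}
    (hv : v < (parx M c x).n) (hy : y < (parx M c x).n) :
    |Gz (parx M c x).toPar (theSem (parx M c x)) (data (parx M c x).toPar
      (theSem (parx M c x)) (csx M c x) (oSd (parx M c x) sd) s) (oSd (parx M c x) sd s 0)
      (oSd (parx M c x) sd s 1) (oSd (parx M c x) sd s 2) j v y| ≤ ((parx M c x).Om : ℤ) := by
  have h1 := H974.Gz_le (numOK x) (semOKx x) (valX hM x (offsX x sd) s (le_of_lt hs))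
    (o := oSd (parx M c x) sd s 0) (o' := oSd (parx M c x) sd s 1)
    (o'' := oSd (parx M c x) sd s 2) (offsX x sd s 0) (offsX x sd s 2) j hv hy
  refine h1.trans ?_
  have h2 := Om_ge (M := M) (c := c) x
  have h3 : (parx M c x).n ≤ (parx M c x).n ^ 2 := Nat.le_self_pow (by norm_num) _
  have h4 : 3 * (parx M c x).n * 2 ^ (parx M c x).rk * (parx M c x).Th ≤
      6 * (parx M c x).n ^ 2 * 2 ^ (parx M c x).rk * (parx M c x).Th :=
    Nat.mul_le_mul_right _ (Nat.mul_le_mul_right _ (by omega))
  exact_mod_cast h4.trans h2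

theorem hnX (x : List Bool) (sd : ℕ) {s : ℕ} (hs : s < (parx M c x).S) (j : ℕ) {v y : ℕ}
    (hv : v < (parx M c x).n) (hy : y < (parx M c x).n) :
    |Hn (parx M c x).toPar (Lm (parx M c x).toPar (theSem (parx M c x)) (data
      (parx M c x).toPar (theSem (parx M c x)) (csx M c x) (oSd (parx M c x) sd) s)
      (oSd (parx M c x) sd s 0) (oSd (parx M c x) sd s 1))
      (Gz (parx M c x).toPar (theSem (parx M c x)) (data (parx M c x).toPar
      (theSem (parx M c x)) (csx M c x) (oSd (parx M c x) sd) s) (oSd (parx M c x) sd s 0)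
      (oSd (parx M c x) sd s 1) (oSd (parx M c x) sd s 2) j) v y| ≤
      ((parx M c x).Om : ℤ) := by
  have h1 := H974.Hn_le (numOK x) (semOKx x) (valX hM x (offsX x sd) s (le_of_lt hs))
    (o := oSd (parx M c x) sd s 0) (o' := oSd (parx M c x) sd s 1)
    (o'' := oSd (parx M c x) sd s 2) (offsX x sd s 0) (offsX x sd s 2) j hv hy
  exact h1.trans (by exact_mod_cast Om_ge (M := M) (c := c) x)

theorem P1X (x : List Bool) (sd : ℕ) {s : ℕ} (hs : s < (parx M c x).S) (Z : ℕ → Prop)
    {a v y : ℕ} (ha : a < (parx M c x).r) (hv : v < (parx M c x).n) (hy : y < (parx M c x).n) :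
    (CX M c x sd).S.P ((CX M c x sd).dt s) Z a v y ≤ 1 := by
  have h1 := P_le_one (p := (parx M c x).toPar) (S := theSem (parx M c x)) (semOKx x)
    (valX hM x (offsX x sd) s (le_of_lt hs)) Z ha hv hy
  rw [CX_dt]
  exact h1

/-- Basic bounds. -/
theorem baseX (x : List Bool) (sd : ℕ) : (CX M c x sd).Base (Mb M c x) where
  M4 := le_trans (by norm_num) (four_le_Mb x)
  n := n_lt_Mb x
  q1 := (q_prime x).pos
  qc := qc_le_Mb x
  qb := (Nat.le_succ _).trans (qb_le_Mb x)
  Th := (parLe x).Th
  D := (parLe x).D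
  Q := (parLe x).Q
  Lam := (parLe x).Lam
  r := (parLe x).r
  lw := lw_lt_Mb x
  F2 := F2_le_Mb x
  K := (parLe x).K
  cmax := (parLe x).cmax
  Om := Om_le_Mb x
  off := fun s _ i _ => (offsX x sd s i).trans (parLe x).D
  tC := fun s _ Z a _ v y _ z _ t _ hW => (H931.c_le_w (parx M c x) _ Z a v y z t).trans hW.le
  tL := fun s _ Z a _ y _ z _ t _ => H931.lo_le (parx M c x) _ Z a y z t
  P1 := fun s hs Z a ha v hv y hy => P1X hM x sd hs Z ha hv hy
  pr0 := fun s hs j hj i _ v hv y hy =>
    (H974.pr0_le (numOK x) (semOKx x) (valX hM x (offsX x sd) s (le_of_lt hs))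
      (offsX x sd s 0) hj i hv hy).trans (pr_le_Mb x)
  pr2 := fun s hs j hj i _ v hv y hy =>
    (H974.pr2_le (numOK x) (semOKx x) (valX hM x (offsX x sd) s (le_of_lt hs))
      (offsX x sd s 2) hj i hv hy).trans (pr_le_Mb x)
  gz := fun s hs j _ v hv y hy => (abs_le.1 (gzX hM x sd hs j hv hy)).2
  hn := fun s hs j _ v hv y hy => (abs_le.1 (hnX hM x sd hs j hv hy)).2
  phi := fun s hs v hv y hy => by
    have h1 := H974.Phi_le (numOK x) (semOKx x) (valX hM x (offsX x sd) s (le_of_lt hs))
      (o := oSd (parx M c x) sd s 0) (o' := oSd (parx M c x) sd s 1)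
      (o'' := oSd (parx M c x) sd s 2) (offsX x sd s 0) (offsX x sd s 2) hv hy
    exact h1.trans (by exact_mod_cast qb_le_Mb x)

/-- The hypotheses of the linear algebra. -/
theorem num3X (x : List Bool) (sd : ℕ) : TS.F3.Num3 (CX M c x sd) (envx M c x sd) where
  qpos := (q_prime x).pos
  Thpos := (numOK x).Thpos
  rkB := by
    rw [envx_B]
    have h1 := (ppx (M := M) (c := c) x).rk_le
    have h2 := hh_pos (M := M) (c := c) x
    rw [ux_h] at h1
    change 2 ^ (parx M c x).rk ≤ Bx M c x
    rw [parx_rk]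
    exact PP.pow_mono (by simp only [cB]; omega)
  bB := by rw [envx_B]; exact ((Nat.le_succ _).trans (qb_le_Mb x)).trans (Mb_le x)
  cB := by rw [envx_B]; exact (qc_le_Mb x).trans (Mb_le x)
  gz := fun s hs j _ v hv y hy => (abs_le.1 (gzX hM x sd hs j hv hy)).1
  hl := fun s hs j _ v hv y hy => (abs_le.1 (hnX hM x sd hs j hv hy)).1
  hu := fun s hs j _ v hv y hy => (abs_le.1 (hnX hM x sd hs j hv hy)).2

/-- ALL HYPOTHESES FOR A GOOD SEED. -/
theorem hypX (x : List Bool) {sd : ℕ}
    (h : GoodSd (parx M c x) (theSem (parx M c x)) (theTSem (parx M c x)) (csx M c x) sd) :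
    (CX M c x sd).Hyp (envx M c x sd) := by
  refine H899.hyp_of (envOkX x sd) (baseX hM x sd) ?_ ?_ (dtOkX hM x sd) h
  · rw [envx_B]; exact Mb_pow_le x
  · rw [envx_B]; exact top_le_B x

end bounded

end Vale.Agent.P313.ZL
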