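import Vale.Agent.P313.H296.Chain

/-!
The chain of a machine which asks for at most `2 ^ lam` random bits is absorbed after
`2 ^ lam` steps.
-/

namespace Vale.Agent.P313.CT

open Finset Sel

variable {cs : ℕ → Bool → ℕ}

theorem hit_total_le (cs : ℕ → Bool → ℕ) : ∀ J v, hit cs 0 J v + hit cs 1 J v ≤ 1 := by
  intro J
  induction J with
  | zero => intro v; simp only [hit]; split_ifs <;> first | omega | norm_num
  | succ J ih =>
    intro v
    simp only [hit]
    have h1 := ih (cs v false)
    have h2 := ih (cs v true)
    linarith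

/-- No more coins: the absorption has happened. -/
theorem hit_eq_of_coins (h0 : ∀ b, cs 0 b = 0) (h1 : ∀ b, cs 1 b = 1) (w : ℕ) :
    ∀ j J v, j ≤ J → hit cs 0 J v + hit cs 1 J v = 1 →
      hitC cs 0 J (j + 1) v = 0 → hitC cs 1 J (j + 1) v = 0 →
      hit cs w j v = hit cs w J v := by
  have hfix : ∀ v, v < 2 → ∀ b, cs v b = v := by
    intro v hv b
    have : v = 0 ∨ v = 1 := by omega
    rcases this with rfl | rfl
    · exact h0 b
    · exact h1 b
  intro j
  induction j with
  | zero =>
    intro J v _ ht hc0 hc1
    by_cases hv : v < 2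
    · rw [hit_fix w (hfix v hv), hit_fix w (hfix v hv)]
    · exfalso
      cases J with
      | zero =>
        simp only [hit] at ht
        rw [if_neg (by omega), if_neg (by omega)] at ht
        norm_num at ht
      | succ J =>
        simp only [hitC, hitC_zero] at hc0 hc1
        rw [if_neg hv] at hc0 hc1
        simp only [hit] at ht
        linarith
  | succ j ih =>
    intro J v hJ ht hc0 hc1
    by_cases hv : v < 2
    · rw [hit_fix w (hfix v hv), hit_fix w (hfix v hv)]
    · cases J with
      | zero => omega
      | succ J =>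
        simp only [hitC] at hc0 hc1
        rw [if_neg hv] at hc0 hc1
        simp only [hit] at ht
        have n0 := hitC_nonneg (cs := cs) 0 J (j + 1) (cs v false)
        have n1 := hitC_nonneg (cs := cs) 0 J (j + 1) (cs v true)
        have n2 := hitC_nonneg (cs := cs) 1 J (j + 1) (cs v false)
        have n3 := hitC_nonneg (cs := cs) 1 J (j + 1) (cs v true)
        have t0 := hit_total_le cs J (cs v false)
        have t1 := hit_total_le cs J (cs v true)
        simp only [hit]
        rw [ih J (cs v false) (by omega) (by linarith) (by linarith) (by linarith),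
          ih J (cs v true) (by omega) (by linarith) (by linarith) (by linarith)]

variable {M : RTM} {c : ℕ}

/-- The chain of a machine with few random bits. -/
theorem chain_few (hM : M.Bounded (fun n => (n + 2) ^ c) (fun n => c * Nat.log 2 (n + 2)))
    (x : List Bool) {j : ℕ} (hc : ∀ v : Bool, M.probAt x v ((x.length + 2) ^ c) (j + 1) M.init = 0)
    (w : ℕ) :
    hitR (M.cs x (sW M c x) (sT c x)) w (min j (sT c x)) (M.startN x (sW M c x) (sT c x)) =
      hitR (M.cs x (sW M c x) (sT c x)) w (sT c x) (M.startN x (sW M c x) (sT c x)) := by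
  rcases le_total (sT c x) j with hj | hj
  · rw [min_eq_right hj]
  rw [min_eq_left hj]
  have hF : M.Fit x (sW M c x) (sT c x) := fit hM (fun n => Nat.le_add_right _ _) x
  have key : ∀ v : Bool, hitC (M.cs x (sW M c x) (sT c x)) (!v).toNat (sT c x) (j + 1)
      (M.startN x (sW M c x) (sT c x)) = 0 := by
    intro v
    have h := RTM.probAt_eq_hitC hF v (sT c x) 0 M.init (by omega)
      (RTM.rch_init (M := M) x) (sT c x) le_rfl
    rw [RTM.start_eq]
    have h2 := h (j + 1)
    rw [← h2]
    exact hc v
  have hch := chain_ok hM x (n := sW M c x ^ M.nd + 3) le_rfl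
  have htot : hit (M.cs x (sW M c x) (sT c x)) 0 (sT c x) (M.startN x (sW M c x) (sT c x)) +
      hit (M.cs x (sW M c x) (sT c x)) 1 (sT c x) (M.startN x (sW M c x) (sT c x)) = 1 := by
    have h3 := hch.total
    rw [hitR_eq, hitR_eq] at h3
    exact_mod_cast h3
  rw [hitR_eq, hitR_eq]
  congr 1
  exact hit_eq_of_coins (fun b => hch.fix0 b) (fun b => hch.fix1 b) w j (sT c x) _ hj htot
    (key true) (key false)

end Vale.Agent.P313.CT
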