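import Vale.Agent.P313.H427L.Par4
import Vale.Agent.P313.H296.Shell

/-!
The environment, further numerical hypotheses.
-/

namespace Vale.Agent.P313.H427L

open Sel (LFx)
open H427 (statN ParLe statN_0 statN_1 statN_2 statN_3 statN_4 statN_5 statN_6 statN_7 statN_8
  statN_9 statN_10 statN_11 statN_12 statN_13 statN_14 statN_15 statN_16 statN_17 statN_18
  statN_19 statN_20 statN_off statN_seed log_succ_le)

namespace PP

variable {u : Un} {q Q : ℕ}

/-! ### Numbers below `2 ^ (cB u.h)` -/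

theorem q_le_pow (p : PP u q Q) : q ≤ 2 ^ (4000 * u.h) := by
  have := p.pow_q_le 1
  rw [pow_one] at this
  exact this.trans (pow_mono (by omega))

theorem Q_le_pow (p : PP u q Q) : Q ≤ 2 ^ ((cQ + 1) * u.h) := by
  refine p.Q2.trans ?_
  rw [← pow_succ']
  apply pow_mono
  have := p.h1
  simp only [cQ]
  omega

theorem lin_bound (p : PP u q Q) {v C : ℕ} (hv : v ≤ C * u.h) (hC : C ≤ 2 ^ 30) :
    v ≤ 2 ^ ((cQ + 1) * u.h) := by
  have h1 := p.h1
  refine (hv.trans (lin_le u.h 30 hC)).trans (pow_mono ?_)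
  simp only [cQ]
  omega

theorem m_lin (p : PP u q Q) : pm u ≤ 75 * u.h :=
  p.m_le.trans (Nat.mul_le_mul_left _ p.el_le)

/-- All parameters are below `2 ^ (10 ^ 8 + 1) u.h`. -/
theorem parLe (p : PP u q Q) {n : ℕ} (hn : n ≤ 2 ^ u.h) :
    ParLe (thePar n u q Q) (2 ^ ((cQ + 1) * u.h)) where
  n := hn.trans (pow_mono (by have := p.h1; simp only [cQ]; omega))
  q := p.q_le_pow.trans (pow_mono (by have := p.h1; simp only [cQ]; omega))
  b := p.lin_bound p.b_le (by norm_num)
  r := p.lin_bound p.r_le_h (by norm_num)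
  rk := p.lin_bound (C := 2) (by
    change u.rk ≤ _
    have h1 := p.rk_le
    have h2 := p.h1
    omega) (by norm_num)
  K := p.lin_bound p.K_le (by norm_num)
  Th1 := pow_mono (by have := p.h1; simp only [cQ, cT]; omega)
  D := pow_mono (by have := p.h1; simp only [cQ, cD]; omega)
  JF := p.lin_bound (C := 75) (le_trans (by
    change pJF u ≤ pm u
    unfold pm
    omega) p.m_lin) (by norm_num)
  JN := p.lin_bound (C := 75) (le_trans (by
    change pJN u ≤ pm u
    unfold pm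
    omega) p.m_lin) (by norm_num)
  Th := (p.Th_le n).trans (pow_mono (by simp only [cQ]; omega))
  cmax := p.lin_bound p.cm_le (by norm_num)
  nd := p.lin_bound p.nd_le (by norm_num)
  Lam := (p.pow_q_le 34).trans (pow_mono (by simp only [cQ]; omega))
  Q := p.Q_le_pow
  DC := p.lin_bound p.DC_le (by norm_num)
  c0 := p.lin_bound p.nd_le (by norm_num)
  lw := p.lin_bound (C := 16122) (by
    have := p.DC_le
    change 2 * pDC u ≤ _
    omega) (by norm_num)
  Om := pow_mono (by simp only [cQ, cO]; omega)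
  m := p.lin_bound p.m_lin (by norm_num)
  S := p.lin_bound p.S_le (by norm_num)

/-! ### Hypotheses of the analysis of one stage -/

theorem sixteen_pow (p : PP u q Q) : 16 ^ (pr u + 1) ≤ q := by
  have h1 := p.r_pos
  refine le_trans ?_ p.q1
  calc 16 ^ (pr u + 1) = 2 ^ (4 * (pr u + 1)) := by rw [pow_mul]; norm_num
    _ ≤ 2 ^ (ca * u.R) := pow_mono (by have := p.r_le; simp only [ca]; omega)

/-- `κ ^ (2 ^ r) q ^ 6 ≤ 1`. -/
theorem kappa_pow (p : PP u q Q) :
    (1 - 1 / (2 : ℝ) ^ u.rk) ^ 2 ^ pr u * (q : ℝ) ^ 6 ≤ 1 := by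
  have h1 := p.diff_ge
  have h2 := p.rk_le_r
  have hk : (1 - 1 / (2 : ℝ) ^ u.rk) ^ 2 ^ pr u ≤ Real.exp (-(2 : ℝ) ^ (pr u - u.rk)) := by
    have h3 : (0 : ℝ) ≤ 1 - 1 / (2 : ℝ) ^ u.rk := by
      have : (1 : ℝ) ≤ 2 ^ u.rk := one_le_pow₀ (by norm_num)
      rw [sub_nonneg, div_le_one (by positivity)]
      exact this
    have h4 : 1 - 1 / (2 : ℝ) ^ u.rk ≤ Real.exp (-(1 / (2 : ℝ) ^ u.rk)) := by
      have := Real.add_one_le_exp (-(1 / (2 : ℝ) ^ u.rk))
      linarith
    calc (1 - 1 / (2 : ℝ) ^ u.rk) ^ 2 ^ pr u ≤ Real.exp (-(1 / (2 : ℝ) ^ u.rk)) ^ 2 ^ pr u :=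
          pow_le_pow_left₀ h3 h4 _
      _ = Real.exp (((2 ^ pr u : ℕ) : ℝ) * (-(1 / (2 : ℝ) ^ u.rk))) := by rw [Real.exp_nat_mul]
      _ = Real.exp (-(2 : ℝ) ^ (pr u - u.rk)) := by
          congr 1
          have h5 : (2 : ℝ) ^ pr u = 2 ^ (pr u - u.rk) * 2 ^ u.rk := by
            rw [← pow_add]
            congr 1
            omega
          push_cast
          rw [h5]
          field_simp
  have hq : (q : ℝ) ^ 6 ≤ Real.exp ((2 : ℝ) ^ (pr u - u.rk)) := by
    have h3 : (q : ℝ) ≤ Real.exp (ca * u.R + 1 : ℕ) := by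
      have h4 : (q : ℝ) ≤ 2 ^ (ca * u.R + 1) := by
        have := p.q2
        rw [← pow_succ'] at this
        exact_mod_cast this
      refine h4.trans ?_
      have h5 : (2 : ℝ) ≤ Real.exp 1 := by
        have := Real.add_one_le_exp (1 : ℝ)
        linarith
      calc (2 : ℝ) ^ (ca * u.R + 1) ≤ Real.exp 1 ^ (ca * u.R + 1) :=
            pow_le_pow_left₀ (by norm_num) h5 _
        _ = Real.exp (ca * u.R + 1 : ℕ) := by rw [← Real.exp_nat_mul, mul_one]
    calc (q : ℝ) ^ 6 ≤ Real.exp (ca * u.R + 1 : ℕ) ^ 6 :=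
          pow_le_pow_left₀ (Nat.cast_nonneg _) h3 6
      _ = Real.exp ((6 : ℕ) * ((ca * u.R + 1 : ℕ) : ℝ)) := by rw [← Real.exp_nat_mul]
      _ ≤ Real.exp ((2 : ℝ) ^ (pr u - u.rk)) := by
          apply Real.exp_le_exp.2
          have h6 : 6 * (ca * u.R + 1) ≤ 2 ^ (pr u - u.rk) := by omega
          exact_mod_cast h6
  calc (1 - 1 / (2 : ℝ) ^ u.rk) ^ 2 ^ pr u * (q : ℝ) ^ 6
      ≤ Real.exp (-(2 : ℝ) ^ (pr u - u.rk)) * Real.exp ((2 : ℝ) ^ (pr u - u.rk)) :=
        mul_le_mul hk hq (by positivity) (Real.exp_pos _).le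
    _ = 1 := by rw [← Real.exp_add]; simp

/-- `(Nmax / q) ^ 31 ≤ q ^ (-23)`. -/
theorem lam_le (p : PP u q Q) {m : ℕ} (hm : m ≤ pL u + pcm u + pnd u) :
    ((m : ℝ) / q) ^ 31 ≤ 1 / (q : ℝ) ^ 23 := by
  have hq : (0 : ℝ) < q := by exact_mod_cast p.qp.pos
  have h1 : m ^ 8 ≤ q := by
    refine le_trans ?_ p.Nmax_pow_le
    refine le_trans (Nat.pow_le_pow_left (show m ≤ 310 * (pL u + pcm u + pnd u) by omega) 8)
      ?_
    exact Nat.le_mul_of_pos_left _ (by positivity)
  rw [div_pow, div_le_div_iff₀ (by positivity) (by positivity), one_mul]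
  have h2 : m ^ 31 * q ^ 23 ≤ q ^ 31 := by
    rcases Nat.eq_zero_or_pos m with h0 | h0
    · subst h0; simp
    calc m ^ 31 * q ^ 23 ≤ m ^ 32 * q ^ 23 :=
          Nat.mul_le_mul_right _ (Nat.pow_le_pow_right h0 (by norm_num))
      _ = (m ^ 8) ^ 4 * q ^ 23 := by rw [← pow_mul]
      _ ≤ q ^ 4 * q ^ 23 := by gcongr
      _ = q ^ 27 := by rw [← pow_add]
      _ ≤ q ^ 31 := Nat.pow_le_pow_right p.q_pos (by norm_num)
  exact_mod_cast h2

end PP

section mach

variable {M : RTM} {c : Cf}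

/-- The environment for a seed. -/
noncomputable def envx (M : RTM) (c : Cf) (x : List Bool) (sd : ℕ) : CT.Env :=
  CT.envS (Bx M c) (fun x => (parx M c x).q) (fun x => (parx M c x).L)
    (fun x j sd => statN (parx M c x) sd j) x sd

theorem parLe (x : List Bool) : ParLe (parx M c x) (2 ^ ((cQ + 1) * hh M c x)) :=
  (ppx (M := M) (c := c) x).parLe (n_le (M := M) (c := c) x)

theorem D_pos' (x : List Bool) : 0 < (parx M c x).D := by rw [parx_D]; exact PP.D_pos _

theorem Q_pos' (x : List Bool) : 0 < (parx M c x).Q := by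
  rw [parx_Q]; exact (ppx (M := M) (c := c) x).Q_pos

/-- Static digits are small. -/
theorem statN_le (x : List Bool) (sd j : ℕ) : statN (parx M c x) sd j ≤ Bx M c x :=
  ((parLe x).stat (D_pos' x) (Q_pos' x) sd j).trans (PP.pow_mono (by simp only [cQ, cB]; omega))

/-- The context of a seed. -/
noncomputable def ctx (M : RTM) (c : Cf) (S : BP.Par2 → BP.Sem) (T : BP.Par2 → BP.TSem)
    (cs : ℕ → Bool → ℕ) (x : List Bool) (sd : ℕ) : H899.Ctx where
  p := parx M c x
  S := S (parx M c x)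
  T := T (parx M c x)
  cs := cs
  o := H126.oSd (parx M c x) sd
  w := H126.wSd (parx M c x) sd

theorem envx_st (x : List Bool) (sd j : ℕ) : (envx M c x sd).st j = statN (parx M c x) sd j := by
  simp only [envx, CT.envS]

theorem envx_B (x : List Bool) (sd : ℕ) : (envx M c x sd).B = Bx M c x := by
  simp only [envx, CT.envS]

theorem envx_w (x : List Bool) (sd : ℕ) : (envx M c x sd).w = (parx M c x).q := by
  simp only [envx, CT.envS]

theorem envx_L (x : List Bool) (sd : ℕ) : (envx M c x sd).L = (parx M c x).L := by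
  simp only [envx, CT.envS]

/-- The environment is the right one. -/
theorem envOk (S : BP.Par2 → BP.Sem) (T : BP.Par2 → BP.TSem) (cs : ℕ → Bool → ℕ) (x : List Bool)
    (sd : ℕ) : (ctx M c S T cs x sd).EnvOk (envx M c x sd) where
  s0 := (envx_st x sd 0).trans (statN_0 (parx M c x) sd)
  s1 := (envx_st x sd 1).trans (statN_1 (parx M c x) sd)
  s2 := (envx_st x sd 2).trans (statN_2 (parx M c x) sd)
  s3 := (envx_st x sd 3).trans (statN_3 (parx M c x) sd)
  s4 := (envx_st x sd 4).trans (statN_4 (parx M c x) sd)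
  s5 := (envx_st x sd 5).trans (statN_5 (parx M c x) sd)
  s6 := (envx_st x sd 6).trans (statN_6 (parx M c x) sd)
  s7 := (envx_st x sd 7).trans (statN_7 (parx M c x) sd)
  s8 := (envx_st x sd 8).trans (statN_8 (parx M c x) sd)
  s9 := (envx_st x sd 9).trans (statN_9 (parx M c x) sd)
  s10 := (envx_st x sd 10).trans (statN_10 (parx M c x) sd)
  s11 := (envx_st x sd 11).trans (statN_11 (parx M c x) sd)
  s12 := (envx_st x sd 12).trans (statN_12 (parx M c x) sd)
  s13 := (envx_st x sd 13).trans (statN_13 (parx M c x) sd)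
  s14 := (envx_st x sd 14).trans (statN_14 (parx M c x) sd)
  s15 := (envx_st x sd 15).trans (statN_15 (parx M c x) sd)
  s16 := (envx_st x sd 16).trans (statN_16 (parx M c x) sd)
  s17 := (envx_st x sd 17).trans (statN_17 (parx M c x) sd)
  s18 := (envx_st x sd 18).trans (statN_18 (parx M c x) sd)
  s19 := (envx_st x sd 19).trans (statN_19 (parx M c x) sd)
  s20 := (envx_st x sd 20).trans (statN_20 (parx M c x) sd)
  off := fun s hs i hi => (envx_st x sd _).trans (statN_off (parx M c x) sd hs hi)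
  seed := fun i _ => (envx_st x sd _).trans (statN_seed (parx M c x) sd i)
  stB := fun j _ => by
    rw [envx_st, envx_B]
    exact statN_le x sd j
  w := envx_w x sd
  L := envx_L x sd

end mach

end Vale.Agent.P313.H427L
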