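import Vale.Agent.P313.H427.Space
import Vale.Agent.P313.H427L.Par5

/-!
The space bound with real exponents, for the parameters with two units.
-/

namespace Vale.Agent.P313.H427L

open H427 (one_le_logb one_le_logb2 natLog_le_logb)

/-- `log (la + loglog n)`. -/
noncomputable def ll (la : ℕ → ℝ) (n : ℕ) : ℝ :=
  Real.logb 2 (la n + Real.logb 2 (Real.logb 2 (n + 2) + 1) + 1)

/-- The space bound: `log n * (la ^ (1/3) * ll ^ (2/3) + (loglog n * ll) ^ (1/2))`,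
`ll = log (la + loglog n)`. -/
noncomputable def spl (la : ℕ → ℝ) (n : ℕ) : ℝ :=
  Real.logb 2 (n + 2) * (la n ^ ((1 : ℝ) / 3) *
    Real.logb 2 (la n + Real.logb 2 (Real.logb 2 (n + 2) + 1) + 1) ^ ((2 : ℝ) / 3) +
    Real.sqrt (Real.logb 2 (Real.logb 2 (n + 2) + 1) *
      Real.logb 2 (la n + Real.logb 2 (Real.logb 2 (n + 2) + 1) + 1)))

theorem one_le_ll {la : ℕ → ℝ} (n : ℕ) (h0 : 0 ≤ la n) : 1 ≤ ll la n := by
  have h1 := one_le_logb2 n
  unfold ll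
  rw [Real.le_logb_iff_rpow_le (by norm_num) (by linarith), Real.rpow_one]
  linarith

theorem one_le_spl {la : ℕ → ℝ} (n : ℕ) (h0 : 0 ≤ la n) : 1 ≤ spl la n := by
  have h1 := one_le_logb n
  have h2 := one_le_logb2 n
  have h4 := one_le_ll n h0
  have h3 : 0 ≤ la n ^ ((1 : ℝ) / 3) * ll la n ^ ((2 : ℝ) / 3) :=
    mul_nonneg (Real.rpow_nonneg h0 _) (Real.rpow_nonneg (by linarith) _)
  have h5 : 1 ≤ Real.sqrt (Real.logb 2 (Real.logb 2 (n + 2) + 1) * ll la n) := by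
    rw [Real.one_le_sqrt]
    nlinarith
  change 1 ≤ Real.logb 2 (n + 2) * (la n ^ ((1 : ℝ) / 3) * ll la n ^ ((2 : ℝ) / 3) +
    Real.sqrt (Real.logb 2 (Real.logb 2 (n + 2) + 1) * ll la n))
  nlinarith

theorem spl_nonneg {la : ℕ → ℝ} (n : ℕ) (h0 : 0 ≤ la n) : 0 ≤ spl la n :=
  zero_le_one.trans (one_le_spl n h0)

theorem el_le_l1 {u : Un} (c : Cb u) : u.el ≤ 2 * u.l1 := by
  have h1 := c.lah
  have h2 := c.l1_le
  have h5 := c.h5
  have h3 : Nat.log 2 (u.la + u.l1) ≤ Nat.log 2 (u.h * 2) := Nat.log_mono_right (by omega)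
  rw [Nat.log_mul_base (by norm_num) (by omega)] at h3
  unfold Un.el Un.l1 at *
  omega

/-- `sg * el` is at most `la ^ (1/3) * el ^ (2/3) + 2 (l1 * el) ^ (1/2)`. -/
theorem sg_el_le {u : Un} (c : Cb u) : ((u.sg * u.el : ℕ) : ℝ) ≤
    (u.la : ℝ) ^ ((1 : ℝ) / 3) * (u.el : ℝ) ^ ((2 : ℝ) / 3) +
      2 * Real.sqrt ((u.l1 : ℝ) * u.el) := by
  have hel : (1 : ℝ) ≤ u.el := by exact_mod_cast Cb.el_pos u
  have hla : (0 : ℝ) ≤ u.la := Nat.cast_nonneg _
  have hA : 0 ≤ (u.la : ℝ) ^ ((1 : ℝ) / 3) * (u.el : ℝ) ^ ((2 : ℝ) / 3) := by positivity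
  have hB : 0 ≤ Real.sqrt ((u.l1 : ℝ) * u.el) := Real.sqrt_nonneg _
  rcases c.le with h | h
  · rcases le_total u.la u.el with h4 | h4
    · rw [max_eq_right h4] at h
      have h5 : u.sg ^ 3 ≤ 1 := by
        by_contra h6
        have h7 : 2 * u.el ≤ u.sg ^ 3 * u.el := Nat.mul_le_mul_right _ (by omega)
        have := Cb.el_pos u
        omega
      have h6 : u.sg ≤ u.sg ^ 3 := Nat.le_self_pow (by norm_num) _
      have h7 : u.sg * u.el ≤ u.el := by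
        calc u.sg * u.el ≤ 1 * u.el := Nat.mul_le_mul_right _ (by omega)
          _ = u.el := one_mul _
      have h8 : ((u.sg * u.el : ℕ) : ℝ) ≤ u.el := by exact_mod_cast h7
      have h9 : (u.el : ℝ) ≤ 2 * Real.sqrt ((u.l1 : ℝ) * u.el) := by
        have h10 : (u.el : ℝ) ≤ 2 * u.l1 := by exact_mod_cast el_le_l1 c
        have h11 : (u.el : ℝ) / 2 ≤ Real.sqrt ((u.l1 : ℝ) * u.el) := by
          apply Real.le_sqrt_of_sq_le
          nlinarith
        linarith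
      linarith
    · rw [max_eq_left h4] at h
      have h2 : (u.sg * u.el) ^ 3 ≤ u.la * u.el ^ 2 := by
        calc (u.sg * u.el) ^ 3 = (u.sg ^ 3 * u.el) * u.el ^ 2 := by ring
          _ ≤ u.la * u.el ^ 2 := Nat.mul_le_mul_right _ h
      have h1 : ((u.sg * u.el : ℕ) : ℝ) ^ 3 ≤ (u.la : ℝ) * (u.el : ℝ) ^ 2 := by
        exact_mod_cast h2
      have h3 : ((u.sg * u.el : ℕ) : ℝ) = (((u.sg * u.el : ℕ) : ℝ) ^ 3) ^ ((1 : ℝ) / 3) := by
        rw [← Real.rpow_natCast, ← Real.rpow_mul (Nat.cast_nonneg _)]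
        norm_num
      have h5 : ((u.la : ℝ) * (u.el : ℝ) ^ 2) ^ ((1 : ℝ) / 3) =
          (u.la : ℝ) ^ ((1 : ℝ) / 3) * (u.el : ℝ) ^ ((2 : ℝ) / 3) := by
        rw [Real.mul_rpow (by positivity) (by positivity), ← Real.rpow_natCast (u.el : ℝ) 2,
          ← Real.rpow_mul (by positivity)]
        norm_num
      have h6 := Real.rpow_le_rpow (by positivity) h1 (show (0 : ℝ) ≤ 1 / 3 by norm_num)
      rw [← h3, h5] at h6
      linarith
  · have h1 : (u.sg * u.el) ^ 2 ≤ u.l1 * u.el := by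
      calc (u.sg * u.el) ^ 2 = (u.sg ^ 2 * u.el) * u.el := by ring
        _ ≤ u.l1 * u.el := Nat.mul_le_mul_right _ h
    have h2 : ((u.sg * u.el : ℕ) : ℝ) ^ 2 ≤ (u.l1 : ℝ) * u.el := by exact_mod_cast h1
    have h3 := Real.le_sqrt_of_sq_le h2
    linarith

/-- The unit of the space. -/
theorem sp_le (M : RTM) (c : Cf) {la : ℕ → ℝ} (hla : ∀ x, (c.la x : ℝ) ≤ la x.length) :
    ∃ C : ℕ, ∀ x, (((ux M c x).sp : ℕ) : ℝ) ≤ C * spl la x.length := by
  obtain ⟨C, hC1, hC⟩ := Sel.sh_le (M := M) (c := c.c)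
  set C2 : ℝ := (((c.k + 1) * C : ℕ) : ℝ) with hC2
  set C3 : ℝ := Real.logb 2 C2 + 2 with hC3
  set C4 : ℝ := Real.logb 2 C3 + 2 with hC4
  refine ⟨⌈C2 * (2 * (C3 * C4))⌉₊, fun x => ?_⟩
  set ℓ : ℝ := Real.logb 2 (x.length + 2) with hl
  set lam : ℝ := Real.logb 2 (ℓ + 1) with hlam
  set l2 : ℝ := Real.logb 2 (la x.length + lam + 1) with hl2
  have hl1 : 1 ≤ ℓ := one_le_logb x.length
  have hlam1 : 1 ≤ lam := one_le_logb2 x.length
  have hCr : (1 : ℝ) ≤ C2 := by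
    rw [hC2]
    exact_mod_cast Nat.mul_pos (Nat.succ_pos _) hC1
  have hlogC : 0 ≤ Real.logb 2 C2 := Real.logb_nonneg (by norm_num) hCr
  have hC31 : 1 ≤ C3 := by rw [hC3]; linarith
  have hlogC3 : 0 ≤ Real.logb 2 C3 := Real.logb_nonneg (by norm_num) hC31
  have hC41 : 1 ≤ C4 := by rw [hC4]; linarith
  have hh1 := hh_pos (M := M) (c := c) x
  have hhr : ((hh M c x : ℕ) : ℝ) ≤ C2 * ℓ := by
    have h1 : ((hh M c x : ℕ) : ℝ) ≤ C2 * (Sel.Ln x : ℝ) := by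
      rw [hC2]
      have := Nat.mul_le_mul_left (c.k + 1) (hC x)
      rw [← mul_assoc] at this
      exact_mod_cast this
    have h2 : (Sel.Ln x : ℝ) ≤ ℓ := by
      have := natLog_le_logb (x.length + 2) (by omega)
      push_cast at this
      exact this
    nlinarith
  have hlog : (((ux M c x).l1 : ℕ) : ℝ) ≤ C3 * lam := by
    have h1 := natLog_le_logb (hh M c x) hh1
    have h2 : Real.logb 2 (hh M c x) ≤ Real.logb 2 (C2 * ℓ) :=
      Real.logb_le_logb_of_le (by norm_num) (by exact_mod_cast hh1) hhr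
    have h3 : Real.logb 2 (C2 * ℓ) = Real.logb 2 C2 + Real.logb 2 ℓ :=
      Real.logb_mul (by positivity) (by positivity)
    have h4 : Real.logb 2 ℓ ≤ lam :=
      Real.logb_le_logb_of_le (by norm_num) (by linarith) (by linarith)
    have h5 : (((ux M c x).l1 : ℕ) : ℝ) = (Nat.log 2 (hh M c x) : ℝ) + 1 := by
      unfold Un.l1
      rw [ux_h]
      push_cast
      ring
    rw [h5, hC3]
    nlinarith
  have hlax : (((ux M c x).la : ℕ) : ℝ) ≤ la x.length := by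
    refine le_trans ?_ (hla x)
    have : (ux M c x).la ≤ c.la x := min_le_left _ _
    exact_mod_cast this
  have hla0 : 0 ≤ la x.length := le_trans (Nat.cast_nonneg _) hlax
  have hl21 : 1 ≤ l2 := one_le_ll (la := la) x.length hla0
  have hel : (((ux M c x).el : ℕ) : ℝ) ≤ C4 * l2 := by
    have h0 : 1 ≤ (ux M c x).la + (ux M c x).l1 := by
      have := Cb.l1_pos (ux M c x)
      omega
    have h1 := natLog_le_logb _ h0
    have h2 : (((ux M c x).la + (ux M c x).l1 : ℕ) : ℝ) ≤ C3 * (la x.length + lam + 1) := by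
      push_cast
      nlinarith
    have h3 : Real.logb 2 (((ux M c x).la + (ux M c x).l1 : ℕ) : ℝ) ≤
        Real.logb 2 (C3 * (la x.length + lam + 1)) :=
      Real.logb_le_logb_of_le (by norm_num) (by exact_mod_cast h0) h2
    have h4 : Real.logb 2 (C3 * (la x.length + lam + 1)) = Real.logb 2 C3 + l2 :=
      Real.logb_mul (by positivity) (by positivity)
    have h5 : (((ux M c x).el : ℕ) : ℝ) =
        (Nat.log 2 ((ux M c x).la + (ux M c x).l1) : ℝ) + 1 := by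
      unfold Un.el
      push_cast
      ring
    rw [h5, hC4]
    nlinarith
  have h6 : (((ux M c x).sp : ℕ) : ℝ) =
      ((hh M c x : ℕ) : ℝ) * (((ux M c x).sg * (ux M c x).el : ℕ) : ℝ) := by
    unfold Un.sp
    rw [ux_h]
    push_cast
    ring
  have hC34 : 1 ≤ C3 * C4 := by nlinarith
  have hA0 : 0 ≤ la x.length ^ ((1 : ℝ) / 3) * l2 ^ ((2 : ℝ) / 3) :=
    mul_nonneg (Real.rpow_nonneg hla0 _) (Real.rpow_nonneg (by linarith) _)
  have h7 : (((ux M c x).sg * (ux M c x).el : ℕ) : ℝ) ≤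
      (2 * (C3 * C4)) * (la x.length ^ ((1 : ℝ) / 3) * l2 ^ ((2 : ℝ) / 3) +
        Real.sqrt (lam * l2)) := by
    refine (sg_el_le (cbx (M := M) (c := c) x)).trans ?_
    have e1 : (((ux M c x).el : ℕ) : ℝ) ^ ((2 : ℝ) / 3) ≤ C4 * l2 ^ ((2 : ℝ) / 3) := by
      calc (((ux M c x).el : ℕ) : ℝ) ^ ((2 : ℝ) / 3) ≤ (C4 * l2) ^ ((2 : ℝ) / 3) :=
            Real.rpow_le_rpow (Nat.cast_nonneg _) hel (by norm_num)
        _ = C4 ^ ((2 : ℝ) / 3) * l2 ^ ((2 : ℝ) / 3) :=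
            Real.mul_rpow (by linarith) (by linarith)
        _ ≤ C4 * l2 ^ ((2 : ℝ) / 3) := by
            apply mul_le_mul_of_nonneg_right _ (Real.rpow_nonneg (by linarith) _)
            calc C4 ^ ((2 : ℝ) / 3) ≤ C4 ^ (1 : ℝ) :=
                  Real.rpow_le_rpow_of_exponent_le hC41 (by norm_num)
              _ = C4 := Real.rpow_one _
    have e2 : (((ux M c x).la : ℕ) : ℝ) ^ ((1 : ℝ) / 3) ≤ la x.length ^ ((1 : ℝ) / 3) :=
      Real.rpow_le_rpow (Nat.cast_nonneg _) hlax (by norm_num)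
    have e3 : Real.sqrt ((((ux M c x).l1 : ℕ) : ℝ) * (((ux M c x).el : ℕ) : ℝ)) ≤
        (C3 * C4) * Real.sqrt (lam * l2) := by
      have h1 : (((ux M c x).l1 : ℕ) : ℝ) * (((ux M c x).el : ℕ) : ℝ) ≤
          (C3 * C4) ^ 2 * (lam * l2) := by
        calc (((ux M c x).l1 : ℕ) : ℝ) * (((ux M c x).el : ℕ) : ℝ) ≤ (C3 * lam) * (C4 * l2) :=
              mul_le_mul hlog hel (Nat.cast_nonneg _) (by positivity)
          _ = (C3 * C4) * (lam * l2) := by ring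
          _ ≤ (C3 * C4) ^ 2 * (lam * l2) := by
              apply mul_le_mul_of_nonneg_right _ (by positivity)
              nlinarith
      refine (Real.sqrt_le_sqrt h1).trans (le_of_eq ?_)
      rw [Real.sqrt_mul (by positivity), Real.sqrt_sq (by positivity)]
    have e4 : (((ux M c x).la : ℕ) : ℝ) ^ ((1 : ℝ) / 3) * (((ux M c x).el : ℕ) : ℝ) ^ ((2 : ℝ) / 3)
        ≤ la x.length ^ ((1 : ℝ) / 3) * (C4 * l2 ^ ((2 : ℝ) / 3)) :=
      mul_le_mul e2 e1 (Real.rpow_nonneg (Nat.cast_nonneg _) _) (Real.rpow_nonneg hla0 _)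
    have e5 : C4 ≤ 2 * (C3 * C4) := by nlinarith
    have e6 : la x.length ^ ((1 : ℝ) / 3) * (C4 * l2 ^ ((2 : ℝ) / 3)) ≤
        (2 * (C3 * C4)) * (la x.length ^ ((1 : ℝ) / 3) * l2 ^ ((2 : ℝ) / 3)) := by
      calc la x.length ^ ((1 : ℝ) / 3) * (C4 * l2 ^ ((2 : ℝ) / 3)) =
            C4 * (la x.length ^ ((1 : ℝ) / 3) * l2 ^ ((2 : ℝ) / 3)) := by ring
        _ ≤ _ := mul_le_mul_of_nonneg_right e5 hA0
    linarith
  have h8 : 0 ≤ la x.length ^ ((1 : ℝ) / 3) * l2 ^ ((2 : ℝ) / 3) + Real.sqrt (lam * l2) :=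
    add_nonneg hA0 (Real.sqrt_nonneg _)
  rw [h6]
  calc ((hh M c x : ℕ) : ℝ) * (((ux M c x).sg * (ux M c x).el : ℕ) : ℝ)
      ≤ (C2 * ℓ) * ((2 * (C3 * C4)) * (la x.length ^ ((1 : ℝ) / 3) * l2 ^ ((2 : ℝ) / 3) +
          Real.sqrt (lam * l2))) :=
        mul_le_mul hhr h7 (Nat.cast_nonneg _) (by positivity)
    _ = (C2 * (2 * (C3 * C4))) * (ℓ * (la x.length ^ ((1 : ℝ) / 3) * l2 ^ ((2 : ℝ) / 3) +
          Real.sqrt (lam * l2))) := by ring
    _ ≤ (⌈C2 * (2 * (C3 * C4))⌉₊ : ℝ) * (ℓ * (la x.length ^ ((1 : ℝ) / 3) * l2 ^ ((2 : ℝ) / 3) +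
          Real.sqrt (lam * l2))) := by
        apply mul_le_mul_of_nonneg_right (Nat.le_ceil _) (mul_nonneg (by linarith) h8)
    _ = _ := rfl

/-- The three space bounds of the assembly. -/
theorem space_bounds (M : RTM) (c : Cf) {la : ℕ → ℝ}
    (hla : ∀ x, (c.la x : ℝ) ≤ la x.length) : ∃ c1 : ℕ,
    (∀ x, (Nat.log 2 (H126.nSd (parx M c x)) : ℝ) ≤ c1 * spl la x.length + c1) ∧
    (∀ x, (((parx M c x).L * (Nat.log 2 (parx M c x).q + 1) : ℕ) : ℝ) ≤
      c1 * spl la x.length + c1) ∧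
    (∀ x, ((((parx M c x).S * (parx M c x).m + 1) *
      (Nat.log 2 (x.length + Bx M c x + 2) + 1) : ℕ) : ℝ) ≤ c1 * spl la x.length + c1) := by
  obtain ⟨C, hC⟩ := sp_le M c hla
  refine ⟨60000000000000000 * C, fun x => ?_, fun x => ?_, fun x => ?_⟩
  · have h1 : (Nat.log 2 (H126.nSd (parx M c x)) : ℝ) ≤
        60000000000000000 * (((ux M c x).sp : ℕ) : ℝ) := by
      exact_mod_cast log_nSd_le (M := M) (c := c) x
    have h2 := hC x
    have h3 : (0 : ℝ) ≤ C := Nat.cast_nonneg C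
    push_cast at *
    nlinarith
  · have h1 : (((parx M c x).L * (Nat.log 2 (parx M c x).q + 1) : ℕ) : ℝ) ≤
        200000000 * (((ux M c x).sp : ℕ) : ℝ) := by
      exact_mod_cast log_tape_le (M := M) (c := c) x
    have h2 := hC x
    have h3 : (0 : ℝ) ≤ C := Nat.cast_nonneg C
    have h4 : (0 : ℝ) ≤ (((ux M c x).sp : ℕ) : ℝ) := Nat.cast_nonneg _
    refine h1.trans ?_
    push_cast at *
    nlinarith
  · have h1 : ((((parx M c x).S * (parx M c x).m + 1) *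
        (Nat.log 2 (x.length + Bx M c x + 2) + 1) : ℕ) : ℝ) ≤
        50000000000000 * (((ux M c x).sp : ℕ) : ℝ) := by
      exact_mod_cast levels_log_le (M := M) (c := c) x
    have h2 := hC x
    have h3 : (0 : ℝ) ≤ C := Nat.cast_nonneg C
    have h4 : (0 : ℝ) ≤ (((ux M c x).sp : ℕ) : ℝ) := Nat.cast_nonneg _
    refine h1.trans ?_
    push_cast at *
    nlinarith

end Vale.Agent.P313.H427L
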