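import Vale.Agent.P313.H296.Final
import Vale.Agent.P313.H974.Value
import Vale.Agent.P313.H427L.Space
import Vale.Agent.P313.H427L.Par7

/-!
Basic objects for the parameters with two units.
-/

namespace Vale.Agent.P313.ZL

open Finset BP H126 H427L
open Z (lf_npair pair_le_sq)
open scoped Classical

variable (M : RTM) (c : Cf)

/-- The chain of the machine. -/
noncomputable def csx (x : List Bool) : ℕ → Bool → ℕ := M.cs x (Sel.sW M c.c x) (Sel.sT c.c x)

/-- Its start. -/
noncomputable def stx (x : List Bool) : ℕ := M.startN x (Sel.sW M c.c x) (Sel.sT c.c x)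

/-- The top level. -/
noncomputable def topx (x : List Bool) : ℕ := (parx M c x).S * (parx M c x).m

/-- The query of the top level. -/
noncomputable def q0x (x : List Bool) : ℕ := Nat.pair 0 (Nat.pair (stx M c x) 0)

/-- The threshold `A / B` (as a multiple of `q ^ (-b)`). -/
noncomputable def thrx (A B : ℕ) (x : List Bool) : ℕ :=
  A * (parx M c x).q ^ (parx M c x).b / B

instance instNZ (x : List Bool) : NeZero (parx M c x).q :=
  ⟨by rw [parx_q]; exact (ppx (M := M) (c := c) x).qp.ne_zero⟩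

variable {M c}

theorem lfx_top : Sel.LFx (topx M c) := by
  unfold topx
  refine (LF.mul (lfx_S (M := M) (c := c)) (lfx_m (M := M) (c := c))).congr (fun x a => ?_)
  show _ = (parx M c x).S * (parx M c x).m
  rw [parx_S, parx_m]

theorem lfx_q0 : Sel.LFx (q0x M c) :=
  lf_npair (LF.const 0) (lf_npair (CT.lfx_start M c.c) (LF.const 0))

theorem lfx_thr (A B : ℕ) : Sel.LFx (thrx M c A B) :=
  LF.div (LF.mul (LF.const A)
    ((lfx_powb (M := M) (c := c)).congr (fun x a => by simp only [parx, thePar]))) (LF.const B)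

/-- The parameter `n` is large enough for the chain. -/
theorem n_ge (x : List Bool) : Sel.sW M c.c x ^ M.nd + 3 ≤ (parx M c x).n := by
  have h1 : (parx M c x).n = Sel.sN M c.c x + 1 := by simp only [parx, thePar]
  rw [h1]
  unfold Sel.sN
  omega

theorem top_le (x : List Bool) : topx M c x ≤ Bx M c x := top_le_B x

theorem q0_le (hM : M.Bounded (fun n => (n + 2) ^ c.c) (fun n => c.c * Nat.log 2 (n + 2)))
    (x : List Bool) : q0x M c x ≤ Bx M c x := by
  have h1 := (CT.chain_ok hM x (n_ge (M := M) (c := c) x)).start_lt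
  have h2 := n_le (M := M) (c := c) x
  have hpos := hh_pos (M := M) (c := c) x
  have h3 : stx M c x + 1 ≤ 2 ^ hh M c x := by unfold stx; omega
  have h4 : Nat.pair (stx M c x) 0 ≤ (2 ^ hh M c x) ^ 2 :=
    (pair_le_sq (stx M c x) 0 (stx M c x) le_rfl (Nat.zero_le _)).trans
      (Nat.pow_le_pow_left h3 2)
  have h5 : q0x M c x ≤ ((2 ^ hh M c x) ^ 2 + 1) ^ 2 := pair_le_sq _ _ _ (Nat.zero_le _) h4
  refine h5.trans ?_
  unfold Bx
  have h6 : (2 ^ hh M c x) ^ 2 + 1 ≤ 2 ^ (3 * hh M c x) := by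
    have h7 : (2 ^ hh M c x) ^ 2 = 2 ^ (2 * hh M c x) := by rw [← pow_mul]; congr 1; ring
    have h8 : 2 ^ (3 * hh M c x) = 2 ^ (2 * hh M c x) * 2 ^ hh M c x := by
      rw [← pow_add]; congr 1; ring
    have h9 : 2 ≤ 2 ^ hh M c x := by
      calc 2 = 2 ^ 1 := (pow_one 2).symm
        _ ≤ 2 ^ hh M c x := PP.pow_mono hpos
    have h10 : 1 ≤ 2 ^ (2 * hh M c x) := Nat.one_le_two_pow
    rw [h7, h8]
    nlinarith
  calc ((2 ^ hh M c x) ^ 2 + 1) ^ 2 ≤ (2 ^ (3 * hh M c x)) ^ 2 := Nat.pow_le_pow_left h6 2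
    _ = 2 ^ (3 * hh M c x * 2) := by rw [← pow_mul]
    _ ≤ 2 ^ (cB * hh M c x) := PP.pow_mono (by simp only [cB]; omega)

end Vale.Agent.P313.ZL
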