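import Vale.Agent.P313.H427L.Fin2
import Vale.Agent.P313.H427L.Coins
import Vale.Agent.P313.H427L.AssembleP

/-!
The final theorem for machines with few coins, small gaps and arbitrary thresholds.
-/

namespace Vale.Agent.P313.ZL

open Finset BP H126 H427L
open H427 (statN)
open Z (hitR_eq)
open scoped Classical

variable {M : RTM} {c : Cf}

/-- The error is at most `2 / E` where `E` is `2 ^ (gap + 5)`. -/
theorem runE (x : List Bool) {g : ℕ} (hg : g ≤ hh M c x) :
    H974.RunE (parx M c x).toPar (parx M c x).S (2 ^ (g + 5)) where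
  S1 := (runOK x).S1
  S2 := (runOK x).S2
  S3 := (runOK x).S3
  S4 := E_ok (PP.pow_mono (by omega))

/-- THE FINAL THEOREM FROM ITS PARTS: the acceptance probability is compared with `A / B`, the gap
is `2 ^ (-g)`, the machine asks for at most `2 ^ lam` random bits. -/
theorem decides_gap
    (hM : M.Bounded (fun n => (n + 2) ^ c.c) (fun n => c.c * Nat.log 2 (n + 2)))
    {lam g : List Bool → ℕ} (hla : ∀ x, c.la x = lam x + g x)
    (hg : ∀ x, g x ≤ c.k * Sel.sh M c.c x)
    (hcoin : ∀ (x : List Bool) (v : Bool),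
      M.probAt x v ((x.length + 2) ^ c.c) (2 ^ lam x + 1) M.init = 0)
    {a b : ℕ} (hb : 0 < b)
    {la : ℕ → ℝ} (hla' : ∀ x, (c.la x : ℝ) ≤ la x.length) (hla0 : ∀ n, 0 ≤ la n) :
    ∃ (A : Set (List Bool)) (D : RTM) (e : ℕ),
      D.Decides A (fun n => (2 : ℝ) ^ (e * spl la n + e)) (fun n => e * spl la n + e) ∧
      ∀ x : List Bool,
        ((a : ℚ) / b + 1 / 2 ^ g x ≤ M.probAt x true ((x.length + 2) ^ c.c) 0 M.init → x ∈ A) ∧
        (M.probAt x true ((x.length + 2) ^ c.c) 0 M.init ≤ (a : ℚ) / b - 1 / 2 ^ g x →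
          x ∉ A) := by
  obtain ⟨c1, hc1, hc2, hc3⟩ := space_bounds M c hla'
  obtain ⟨A, D, e, hD, hA⟩ := CT.assembleP (p := progX M c) progX_ok (B := Bx M c) (w := fun x => (parx M c x).q)
    (L := fun x => (parx M c x).L) (top := topx M c) (q0 := q0x M c) (thr := thrx M c a b)
    (NS := fun x => nSd (parx M c x)) (st := fun x j sd => statN (parx M c x) sd j)
    lfx_B ((lfx_q (M := M) (c := c)).congr (fun x a => by rw [parx_q]))
    ((lfx_L (M := M) (c := c)).congr (fun x a => by rw [parx_L])) lfx_top lfx_q0 (lfx_thr a b)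
    (lf_stat (LF.proj 1) (LF.proj 0)) lf_nSd
    (fun x => Nat.one_le_iff_ne_zero.2 (NeZero.ne _)) top_le (q0_le hM)
    (fun n => spl_nonneg n (hla0 n)) (c1 := c1) hc1 hc2 hc3
  refine ⟨A, D, e, hD, fun x => ?_⟩
  have hch := CT.chain_ok hM x (n_ge (M := M) (c := c) x)
  have hpr := CT.chain_prob hM x
  have hnpos : 0 < nSd (parx M c x) := by
    unfold nSd
    exact Nat.mul_pos (Nat.pow_pos (D_pos' x)) (Nat.pow_pos (Q_pos' x))
  have hgh : g x ≤ hh M c x := (hg x).trans (by
    unfold hh
    exact Nat.mul_le_mul_right _ (Nat.le_succ _))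
  have hq0 : 0 < (parx M c x).q ^ (parx M c x).b := Nat.pow_pos (q_prime x).pos
  have key : ∀ bb : Prop,
      (bb → (a : ℚ) / b + 1 / 2 ^ g x ≤ M.probAt x true ((x.length + 2) ^ c.c) 0 M.init) →
      (¬ bb → M.probAt x true ((x.length + 2) ^ c.c) 0 M.init ≤ (a : ℚ) / b - 1 / 2 ^ g x) →
      ∀ sd, GoodSd (parx M c x) (theSem (parx M c x)) (theTSem (parx M c x)) (csx M c x) sd →
      CT.Restores (CT.envS (Bx M c) (fun x => (parx M c x).q) (fun x => (parx M c x).L)
        (fun x j sd => statN (parx M c x) sd j) x sd) (progX M c) (topx M c x) ∧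
      (thrx M c a b x < CT.val (CT.envS (Bx M c) (fun x => (parx M c x).q)
        (fun x => (parx M c x).L) (fun x j sd => statN (parx M c x) sd j) x sd) (progX M c)
        (topx M c x) (q0x M c x) (fun _ => 0) ↔ bb) := by
    intro bb hP1 hP2 sd hsd
    obtain ⟨hr, hv⟩ := good_ok hM x sd hsd
    refine ⟨hr, ?_⟩
    have hv' : CT.val (CT.envS (Bx M c) (fun x => (parx M c x).q)
        (fun x => (parx M c x).L) (fun x j sd => statN (parx M c x) sd j) x sd) (progX M c)
        (topx M c x) (q0x M c x) (fun _ => 0) = (data (parx M c x).toPar (theSem (parx M c x))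
          (csx M c x) (oSd (parx M c x) sd) (parx M c x).S).A (stx M c x) 0 := hv
    rw [hv']
    have hoffs : H974.Offs (parx M c x).toPar (oSd (parx M c x) sd) :=
      fun s i => (oSd_lt (D_pos' x) sd s i).le
    -- the number of coins
    have hT : 2 ^ (g x + 5) * min (2 ^ lam x) (Sel.sT c.c x) ≤
        2 ^ ((parx M c x).rk * (parx M c x).K) := by
      apply T_ok
      unfold lax
      rw [hla x]
      rcases le_total (lam x + g x) (hh M c x) with h | h
      · rw [min_eq_left h]
        calc 2 ^ (g x + 5) * min (2 ^ lam x) (Sel.sT c.c x) ≤ 2 ^ (g x + 5) * 2 ^ lam x :=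
              Nat.mul_le_mul_left _ (min_le_left _ _)
          _ = 2 ^ (lam x + g x + 5) := by rw [← pow_add]; congr 1; ring
      · rw [min_eq_right h]
        have hsT : Sel.sT c.c x ≤ 2 ^ Sel.sh M c.c x := T_le (M := M) (c := c) x
        calc 2 ^ (g x + 5) * min (2 ^ lam x) (Sel.sT c.c x)
            ≤ 2 ^ (g x + 5) * 2 ^ Sel.sh M c.c x :=
              Nat.mul_le_mul_left _ ((min_le_right _ _).trans hsT)
          _ = 2 ^ (g x + Sel.sh M c.c x + 5) := by rw [← pow_add]; congr 1; ring
          _ ≤ 2 ^ (hh M c x + 5) := by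
              apply PP.pow_mono
              have := hg x
              unfold hh
              rw [Nat.succ_mul]
              omega
    have hval := H974.comp_value (numOK x) (semOKx x) (o := oSd (parx M c x) sd) hoffs
      (cs := csx M c x) hch.closed (Sn := (parx M c x).S) (E := 2 ^ (g x + 5)) (by positivity)
      (runE x hgh) hT (st := stx M c x) (acc := 0) (rej := 1)
      hch.start_lt (by have := hch.three_le; omega) (by have := hch.three_le; omega)
      (by norm_num) hch.fix0 hch.fix1
    rw [hitR_eq, hitR_eq] at hval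
    have hf : ∀ w, CT.hitR (csx M c x) w (min (2 ^ lam x) (Sel.sT c.c x)) (stx M c x) =
        CT.hitR (csx M c x) w (Sel.sT c.c x) (stx M c x) :=
      fun w => CT.chain_few hM x (fun v => hcoin x v) w
    rw [hf 0, hf 1] at hval
    have htot : CT.hitR (csx M c x) 0 (Sel.sT c.c x) (stx M c x) +
        CT.hitR (csx M c x) 1 (Sel.sT c.c x) (stx M c x) = 1 := hch.total
    have hpr' : CT.hitR (csx M c x) 0 (Sel.sT c.c x) (stx M c x) =
        ((M.probAt x true ((x.length + 2) ^ c.c) 0 M.init : ℚ) : ℝ) := hpr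
    set p : ℝ := ((M.probAt x true ((x.length + 2) ^ c.c) 0 M.init : ℚ) : ℝ) with hp
    set W : ℕ := (data (parx M c x).toPar (theSem (parx M c x)) (csx M c x)
      (oSd (parx M c x) sd) (parx M c x).S).A (stx M c x) 0 with hW
    have hqb : (0 : ℝ) < ((parx M c x).q : ℝ) ^ (parx M c x).b := by exact_mod_cast hq0
    have hbr : (0 : ℝ) < b := by exact_mod_cast hb
    have hE : (2 : ℝ) / ((2 ^ (g x + 5) : ℕ) : ℝ) = (1 / 2 ^ g x) / 16 := by
      push_cast
      rw [pow_add]
      field_simp
      norm_num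
    have hgp : (0 : ℝ) < 1 / 2 ^ g x := by positivity
    rw [hE] at hval
    have h1 : p - (1 / 2 ^ g x) / 16 ≤ (W : ℝ) / ((parx M c x).q : ℝ) ^ (parx M c x).b := by
      rw [← hpr']
      exact hval.1
    have h2 : (W : ℝ) / ((parx M c x).q : ℝ) ^ (parx M c x).b ≤ p + (1 / 2 ^ g x) / 16 := by
      refine hval.2.trans (le_of_eq ?_)
      rw [← hpr']
      linarith
    unfold thrx
    rw [Nat.div_lt_iff_lt_mul hb]
    by_cases hx : bb
    · refine iff_of_true ?_ hx
      have h3 : (a : ℝ) / b + 1 / 2 ^ g x ≤ p := by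
        have h4 : (((a : ℚ) / b + 1 / 2 ^ g x : ℚ) : ℝ) ≤ p := Rat.cast_le.2 (hP1 hx)
        push_cast at h4
        exact h4
      have h5 : (a : ℝ) / b < (W : ℝ) / ((parx M c x).q : ℝ) ^ (parx M c x).b := by linarith
      rw [div_lt_div_iff₀ hbr hqb] at h5
      have h6 : a * (parx M c x).q ^ (parx M c x).b < W * b := by exact_mod_cast h5
      exact h6
    · refine iff_of_false ?_ hx
      have h3 : p ≤ (a : ℝ) / b - 1 / 2 ^ g x := by
        have h4 : p ≤ (((a : ℚ) / b - 1 / 2 ^ g x : ℚ) : ℝ) := Rat.cast_le.2 (hP2 hx)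
        push_cast at h4
        exact h4
      have h5 : (W : ℝ) / ((parx M c x).q : ℝ) ^ (parx M c x).b < (a : ℝ) / b := by linarith
      rw [div_lt_div_iff₀ hqb hbr] at h5
      have h6 : W * b < a * (parx M c x).q ^ (parx M c x).b := by exact_mod_cast h5
      omega
  have h4 := hcardX (M := M) (c := c) x
  have h5 := card_filter_add_card_filter_not (s := range (nSd (parx M c x)))
    (fun sd => GoodSd (parx M c x) (theSem (parx M c x)) (theTSem (parx M c x)) (csx M c x) sd)
  rw [card_range] at h5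
  have fin : ∀ bb : Prop,
      (bb → (a : ℚ) / b + 1 / 2 ^ g x ≤ M.probAt x true ((x.length + 2) ^ c.c) 0 M.init) →
      (¬ bb → M.probAt x true ((x.length + 2) ^ c.c) 0 M.init ≤ (a : ℚ) / b - 1 / 2 ^ g x) →
      (x ∈ A ↔ bb) := by
    intro bb hP1 hP2
    refine hA x bb ?_
    have h6 : ((range (nSd (parx M c x))).filter fun sd =>
        GoodSd (parx M c x) (theSem (parx M c x)) (theTSem (parx M c x)) (csx M c x) sd).card ≤
        #{s ∈ range (nSd (parx M c x)) | CT.Restores (CT.envS (Bx M c)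
          (fun x => (parx M c x).q) (fun x => (parx M c x).L)
          (fun x j sd => statN (parx M c x) sd j) x s) (progX M c) (topx M c x) ∧
        (thrx M c a b x < CT.val (CT.envS (Bx M c) (fun x => (parx M c x).q)
          (fun x => (parx M c x).L) (fun x j sd => statN (parx M c x) sd j) x s) (progX M c)
          (topx M c x) (q0x M c x) (fun _ => 0) ↔ bb)} := by
      refine card_le_card (fun sd hsd => ?_)
      rw [mem_filter] at hsd ⊢
      exact ⟨hsd.1, key bb hP1 hP2 sd hsd.2⟩
    have h7 : nSd (parx M c x) <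
        2 * ((range (nSd (parx M c x))).filter fun sd =>
        GoodSd (parx M c x) (theSem (parx M c x)) (theTSem (parx M c x)) (csx M c x) sd).card := by
      omega
    exact h7.trans_le (Nat.mul_le_mul_left 2 h6)
  exact ⟨fun h => (fin True (fun _ => h) (fun h' => absurd trivial h')).2 trivial,
    fun h hx => (fin False (fun h' => h'.elim) (fun _ => h)).1 hx⟩

end Vale.Agent.P313.ZL
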