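import Vale.Agent.P313.H427L.Fin3

/-!
The two general theorems: few random bits; all machines with polynomially small gaps.
-/

namespace Vale.Agent.P313.ZL

open H427L
open H427 (one_le_logb one_le_logb2 natLog_le_logb)

/-- Larger bounds, without the additive constant. -/
theorem decides_clean {D : RTM} {A : Set (List Bool)} {S S' : ℕ → ℝ} {e : ℕ} {C : ℝ}
    (h : D.Decides A (fun n => (2 : ℝ) ^ (e * S n + e)) (fun n => e * S n + e))
    (h1 : ∀ n, 1 ≤ S n) (hS : ∀ n, S n ≤ C * S' n) :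
    D.Decides A (fun n => (2 : ℝ) ^ (2 * e * C * S' n)) (fun n => 2 * e * C * S' n) := by
  have key : ∀ n, (e : ℝ) * S n + e ≤ 2 * e * C * S' n := by
    intro n
    have h2 := h1 n
    have h3 := hS n
    have h4 : (0 : ℝ) ≤ e := Nat.cast_nonneg e
    nlinarith [mul_le_mul_of_nonneg_left h3 h4]
  exact Z.decides_mono h
    (fun n => Real.rpow_le_rpow_of_exponent_le (by norm_num) (key n)) key

/-- MACHINES WITH FEW RANDOM BITS. -/
theorem few_coins {lam g : ℕ → ℕ} (hlam : LogConstructible lam) (hg : LogConstructible g)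
    {k : ℕ} (hgk : ∀ n, g n ≤ k * Nat.log 2 (n + 2)) {a b : ℕ} (hb : 0 < b)
    {M : RTM} {c : ℕ} (hM : M.Bounded (fun n => (n + 2) ^ c) (fun n => c * Nat.log 2 (n + 2)))
    (hcoin : ∀ (x : List Bool) (v : Bool),
      M.probAt x v ((x.length + 2) ^ c) (2 ^ lam x.length + 1) M.init = 0) :
    ∃ (A : Set (List Bool)) (D : RTM) (e : ℝ),
      D.Decides A
        (fun n => (2 : ℝ) ^ (e * (Real.logb 2 (n + 2) * (((lam n : ℝ) + g n) ^ ((1 : ℝ) / 3) *
          Real.logb 2 ((lam n : ℝ) + g n + Real.logb 2 (Real.logb 2 (n + 2) + 1) + 1) ^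
            ((2 : ℝ) / 3) +
          Real.sqrt (Real.logb 2 (Real.logb 2 (n + 2) + 1) *
            Real.logb 2 ((lam n : ℝ) + g n + Real.logb 2 (Real.logb 2 (n + 2) + 1) + 1))))))
        (fun n => e * (Real.logb 2 (n + 2) * (((lam n : ℝ) + g n) ^ ((1 : ℝ) / 3) *
          Real.logb 2 ((lam n : ℝ) + g n + Real.logb 2 (Real.logb 2 (n + 2) + 1) + 1) ^
            ((2 : ℝ) / 3) +
          Real.sqrt (Real.logb 2 (Real.logb 2 (n + 2) + 1) *
            Real.logb 2 ((lam n : ℝ) + g n + Real.logb 2 (Real.logb 2 (n + 2) + 1) + 1))))) ∧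
      ∀ x : List Bool,
        ((a : ℚ) / b + 1 / 2 ^ g x.length ≤ M.probAt x true ((x.length + 2) ^ c) 0 M.init →
          x ∈ A) ∧
        (M.probAt x true ((x.length + 2) ^ c) 0 M.init ≤ (a : ℚ) / b - 1 / 2 ^ g x.length →
          x ∉ A) := by
  let C : Cf := ⟨c, k, fun x => lam x.length + g x.length,
    LF.add (Sel.lfx_of_constructible hlam) (Sel.lfx_of_constructible hg)⟩
  have hla0 : ∀ n, (0 : ℝ) ≤ (lam n : ℝ) + g n := fun n => by positivity
  obtain ⟨A, D, e, hD, hA⟩ := decides_gap (M := M) (c := C) hM (lam := fun x => lam x.length)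
    (g := fun x => g x.length) (fun x => rfl) (fun x => (hgk x.length).trans
      (Nat.mul_le_mul_left _ (Sel.log_n_le (M := M) (c := c) x))) hcoin hb
    (la := fun n => (lam n : ℝ) + g n) (fun x => by
      change (((lam x.length + g x.length : ℕ)) : ℝ) ≤ _
      push_cast
      exact le_rfl) hla0
  refine ⟨A, D, 2 * e * 1, decides_clean (S' := spl (fun n => (lam n : ℝ) + g n)) hD
    (fun n => one_le_spl n (hla0 n)) (C := 1) (fun n => by rw [one_mul]), hA⟩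

theorem spl_le (K : ℕ) : ∃ C : ℝ, ∀ n : ℕ,
    spl (fun n => ((K * (Nat.log 2 (n + 2) + 1) : ℕ) : ℝ)) n ≤ C * H427.sp n := by
  set c2 : ℝ := Real.logb 2 (2 * K + 2) + 1 with hc2
  refine ⟨(2 * K) * c2 + c2, fun n => ?_⟩
  set ℓ : ℝ := Real.logb 2 (n + 2) with hl
  set lm : ℝ := Real.logb 2 (ℓ + 1) with hlm
  have hK : (0 : ℝ) ≤ K := Nat.cast_nonneg K
  have hc20 : 0 ≤ Real.logb 2 (2 * (K : ℝ) + 2) := Real.logb_nonneg (by norm_num) (by linarith)
  have hc21 : 1 ≤ c2 := by rw [hc2]; linarith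
  have h1 : 1 ≤ ℓ := one_le_logb n
  have h2 : 1 ≤ lm := one_le_logb2 n
  have h3 : (Nat.log 2 (n + 2) : ℝ) ≤ ℓ := by
    have := natLog_le_logb (n + 2) (by omega)
    push_cast at this
    exact this
  have h4 : lm ≤ ℓ := by
    rw [hlm, Real.logb_le_iff_le_rpow (by norm_num) (by linarith)]
    have h5 : ℓ = ℓ := rfl
    have h6 := one_add_mul_self_le_rpow_one_add (s := 1) (by norm_num) h1
    norm_num at h6
    linarith
  set la : ℝ := ((K * (Nat.log 2 (n + 2) + 1) : ℕ) : ℝ) with hla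
  have hla0 : 0 ≤ la := Nat.cast_nonneg _
  have e1 : la ≤ (2 * K) * ℓ := by
    rw [hla]
    push_cast
    nlinarith
  have e2 : la ^ ((1 : ℝ) / 3) ≤ (2 * K) * ℓ ^ ((1 : ℝ) / 3) := by
    refine (Real.rpow_le_rpow hla0 e1 (by norm_num)).trans ?_
    rw [Real.mul_rpow (by positivity) (by linarith)]
    apply mul_le_mul_of_nonneg_right _ (Real.rpow_nonneg (by linarith) _)
    rcases Nat.eq_zero_or_pos K with h0 | h0
    · rw [h0]
      norm_num
    · have h7 : (1 : ℝ) ≤ 2 * K := by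
        have : (1 : ℝ) ≤ K := by exact_mod_cast h0
        linarith
      calc (2 * (K : ℝ)) ^ ((1 : ℝ) / 3) ≤ (2 * (K : ℝ)) ^ (1 : ℝ) :=
            Real.rpow_le_rpow_of_exponent_le h7 (by norm_num)
        _ = 2 * K := Real.rpow_one _
  set l2 : ℝ := Real.logb 2 (la + lm + 1) with hl2
  have hl21 : 0 ≤ l2 := Real.logb_nonneg (by norm_num) (by linarith)
  have e3 : l2 ≤ c2 * lm := by
    have h5 : l2 ≤ Real.logb 2 ((2 * K + 2) * ℓ) :=
      Real.logb_le_logb_of_le (by norm_num) (by linarith) (by nlinarith)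
    have h6 : Real.logb 2 ((2 * (K : ℝ) + 2) * ℓ) =
        Real.logb 2 (2 * K + 2) + Real.logb 2 ℓ :=
      Real.logb_mul (by positivity) (by linarith)
    have h7 : Real.logb 2 ℓ ≤ lm :=
      Real.logb_le_logb_of_le (by norm_num) (by linarith) (by linarith)
    rw [hc2]
    nlinarith
  have e5 : 0 ≤ lm ^ ((2 : ℝ) / 3) := Real.rpow_nonneg (by linarith) _
  have e4 : l2 ^ ((2 : ℝ) / 3) ≤ c2 * lm ^ ((2 : ℝ) / 3) := by
    calc l2 ^ ((2 : ℝ) / 3) ≤ (c2 * lm) ^ ((2 : ℝ) / 3) :=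
          Real.rpow_le_rpow hl21 e3 (by norm_num)
      _ = c2 ^ ((2 : ℝ) / 3) * lm ^ ((2 : ℝ) / 3) := Real.mul_rpow (by linarith) (by linarith)
      _ ≤ c2 * lm ^ ((2 : ℝ) / 3) := by
          apply mul_le_mul_of_nonneg_right _ e5
          calc c2 ^ ((2 : ℝ) / 3) ≤ c2 ^ (1 : ℝ) :=
                Real.rpow_le_rpow_of_exponent_le hc21 (by norm_num)
            _ = c2 := Real.rpow_one _
  have e6 : Real.sqrt (lm * l2) ≤ c2 * (ℓ ^ ((1 : ℝ) / 3) * lm ^ ((2 : ℝ) / 3)) := by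
    have h5 : Real.sqrt (lm * l2) ≤ c2 * lm := by
      rw [Real.sqrt_le_left (by nlinarith)]
      calc lm * l2 ≤ lm * (c2 * lm) := mul_le_mul_of_nonneg_left e3 (by linarith)
        _ = c2 * (lm * lm) := by ring
        _ ≤ (c2 * c2) * (lm * lm) := by
            apply mul_le_mul_of_nonneg_right _ (by nlinarith)
            nlinarith
        _ = (c2 * lm) ^ 2 := by ring
    refine h5.trans (mul_le_mul_of_nonneg_left ?_ (by linarith))
    calc lm = lm ^ ((1 : ℝ) / 3) * lm ^ ((2 : ℝ) / 3) := by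
          rw [← Real.rpow_add (by linarith)]
          norm_num
      _ ≤ ℓ ^ ((1 : ℝ) / 3) * lm ^ ((2 : ℝ) / 3) := by
          apply mul_le_mul_of_nonneg_right _ e5
          exact Real.rpow_le_rpow (by linarith) h4 (by norm_num)
  have e7 : ℓ * ℓ ^ ((1 : ℝ) / 3) = ℓ ^ ((4 : ℝ) / 3) := by
    rw [← Real.rpow_one_add' (by linarith) (by norm_num)]
    norm_num
  have e8 : la ^ ((1 : ℝ) / 3) * l2 ^ ((2 : ℝ) / 3) ≤
      ((2 * K) * ℓ ^ ((1 : ℝ) / 3)) * (c2 * lm ^ ((2 : ℝ) / 3)) :=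
    mul_le_mul e2 e4 (Real.rpow_nonneg hl21 _)
      (mul_nonneg (by linarith) (Real.rpow_nonneg (by linarith) _))
  change ℓ * (la ^ ((1 : ℝ) / 3) * l2 ^ ((2 : ℝ) / 3) + Real.sqrt (lm * l2)) ≤
    ((2 * K) * c2 + c2) * (ℓ ^ ((4 : ℝ) / 3) * lm ^ ((2 : ℝ) / 3))
  calc ℓ * (la ^ ((1 : ℝ) / 3) * l2 ^ ((2 : ℝ) / 3) + Real.sqrt (lm * l2))
      ≤ ℓ * (((2 * K) * ℓ ^ ((1 : ℝ) / 3)) * (c2 * lm ^ ((2 : ℝ) / 3)) +
        c2 * (ℓ ^ ((1 : ℝ) / 3) * lm ^ ((2 : ℝ) / 3))) :=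
        mul_le_mul_of_nonneg_left (add_le_add e8 e6) (by linarith)
    _ = ((2 * K) * c2 + c2) * ((ℓ * ℓ ^ ((1 : ℝ) / 3)) * lm ^ ((2 : ℝ) / 3)) := by ring
    _ = ((2 * K) * c2 + c2) * (ℓ ^ ((4 : ℝ) / 3) * lm ^ ((2 : ℝ) / 3)) := by rw [e7]

/-- ALL MACHINES, polynomially small gaps around any threshold. -/
theorem all_coins (k : ℕ) {a b : ℕ} (hb : 0 < b)
    {M : RTM} {c : ℕ} (hM : M.Bounded (fun n => (n + 2) ^ c) (fun n => c * Nat.log 2 (n + 2))) :
    ∃ (A : Set (List Bool)) (D : RTM) (e : ℝ),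
      D.Decides A
        (fun n => (2 : ℝ) ^ (e * (Real.logb 2 (n + 2) ^ ((4 : ℝ) / 3) *
          Real.logb 2 (Real.logb 2 (n + 2) + 1) ^ ((2 : ℝ) / 3))))
        (fun n => e * (Real.logb 2 (n + 2) ^ ((4 : ℝ) / 3) *
          Real.logb 2 (Real.logb 2 (n + 2) + 1) ^ ((2 : ℝ) / 3))) ∧
      ∀ x : List Bool,
        ((a : ℚ) / b + 1 / (x.length + 2) ^ k ≤
          M.probAt x true ((x.length + 2) ^ c) 0 M.init → x ∈ A) ∧
        (M.probAt x true ((x.length + 2) ^ c) 0 M.init ≤ (a : ℚ) / b - 1 / (x.length + 2) ^ k →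
          x ∉ A) := by
  have hlog : Sel.LFx (fun x => Nat.log 2 (x.length + 2) + 1) :=
    (LF.log2 (LF.len.add (LF.const 2))).succ
  let C : Cf := ⟨c, 2 * k, fun x => c * (Nat.log 2 (x.length + 2) + 1) +
    k * (Nat.log 2 (x.length + 2) + 1),
    LF.add (LF.mul (LF.const c) hlog) (LF.mul (LF.const k) hlog)⟩
  have hpow : ∀ (j : ℕ) (x : List Bool),
      (x.length + 2) ^ j ≤ 2 ^ (j * (Nat.log 2 (x.length + 2) + 1)) := by
    intro j x
    rw [mul_comm, pow_mul]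
    exact Nat.pow_le_pow_left (Nat.lt_pow_succ_log_self (by norm_num) _).le j
  obtain ⟨A, D, e, hD, hA⟩ := decides_gap (M := M) (c := C) hM
    (lam := fun x => c * (Nat.log 2 (x.length + 2) + 1))
    (g := fun x => k * (Nat.log 2 (x.length + 2) + 1)) (fun x => rfl) (fun x => by
      have h1 := Sel.log_n_le (M := M) (c := c) x
      have h2 := Sel.five_le_h (M := M) (c := c) x
      change k * (Nat.log 2 (x.length + 2) + 1) ≤ 2 * k * Sel.sh M c x
      calc k * (Nat.log 2 (x.length + 2) + 1) ≤ k * (2 * Sel.sh M c x) :=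
            Nat.mul_le_mul_left _ (by omega)
        _ = 2 * k * Sel.sh M c x := by ring) (fun x v =>
      Sel.probAt_zero_of_lt x v _ _ _ (lt_of_le_of_lt (hpow c x) (Nat.lt_succ_self _))) hb
    (la := fun n => (((c + k) * (Nat.log 2 (n + 2) + 1) : ℕ) : ℝ)) (fun x => by
      change (((c * (Nat.log 2 (x.length + 2) + 1) + k * (Nat.log 2 (x.length + 2) + 1) : ℕ)) : ℝ)
        ≤ _
      rw [← Nat.add_mul]) (fun n => Nat.cast_nonneg _)
  obtain ⟨C', hC'⟩ := spl_le (c + k)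
  refine ⟨A, D, 2 * e * C', decides_clean (S' := H427.sp) hD
    (fun n => one_le_spl n (Nat.cast_nonneg _)) hC', fun x => ⟨fun h => ?_, fun h => ?_⟩⟩
  · refine (hA x).1 (le_trans ?_ h)
    have h1 : (1 : ℚ) / 2 ^ (k * (Nat.log 2 (x.length + 2) + 1)) ≤ 1 / (x.length + 2) ^ k := by
      apply one_div_le_one_div_of_le (by positivity)
      exact_mod_cast hpow k x
    linarith
  · refine (hA x).2 (le_trans h ?_)
    have h1 : (1 : ℚ) / 2 ^ (k * (Nat.log 2 (x.length + 2) + 1)) ≤ 1 / (x.length + 2) ^ k := by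
      apply one_div_le_one_div_of_le (by positivity)
      exact_mod_cast hpow k x
    linarith

end Vale.Agent.P313.ZL
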