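import Vale.Agent.P313.H427.Par0

/-!
Parameters with two units: `h` is the number of bits of the number of states, `la` the number of
bits of the number of coins (plus the number of bits of the gap). Pure inequalities.
-/

namespace Vale.Agent.P313.H427L

open H427

/-- The basic numbers. -/
structure Un where
  /-- number of bits -/
  h : ℕ
  /-- number of bits of the number of coins -/
  la : ℕ
  /-- number of stages, up to a constant -/
  sg : ℕ

/-- `log h + 1`. -/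
def Un.l1 (u : Un) : ℕ := Nat.log 2 u.h + 1

/-- The logarithm of `la + log h`, up to a constant. -/
def Un.el (u : Un) : ℕ := Nat.log 2 (u.la + u.l1) + 1

/-- Unit of the time. -/
def Un.rk (u : Un) : ℕ := u.la / u.sg + 1

/-- Unit of the mass. -/
def Un.R (u : Un) : ℕ := u.h / u.sg + 1

/-- Unit of the space. -/
def Un.sp (u : Un) : ℕ := u.h * (u.sg * u.el)

/-- `sg` is about the cube root of `la / el` or the square root of `l1 / el`. -/
structure Cb (u : Un) : Prop where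
  h5 : 5 ≤ u.h
  lah : u.la ≤ u.h
  s1 : 1 ≤ u.sg
  le : u.sg ^ 3 * u.el ≤ max u.la u.el ∨ u.sg ^ 2 * u.el ≤ u.l1
  lt : u.la < (u.sg + 1) ^ 3 * u.el
  lt2 : u.l1 < (u.sg + 1) ^ 2 * u.el

namespace Cb

variable {u : Un}

theorem el_pos (u : Un) : 1 ≤ u.el := Nat.le_add_left _ _

theorem h1 (c : Cb u) : 1 ≤ u.h := by have := c.h5; omega

theorem l1_pos (u : Un) : 1 ≤ u.l1 := Nat.le_add_left _ _

/-- `el` is larger than the logarithm of `l1`. -/
theorem two_le_el (c : Cb u) : 2 ≤ u.el := by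
  have h1 : 2 ≤ u.l1 := by
    have : 1 ≤ Nat.log 2 u.h := by
      have := c.h5
      exact Nat.le_log_of_pow_le (by norm_num) (by omega)
    unfold Un.l1
    omega
  have h2 : 1 ≤ Nat.log 2 (u.la + u.l1) := Nat.le_log_of_pow_le (by norm_num) (by omega)
  unfold Un.el
  omega

theorem l1_sq_le (c : Cb u) : u.l1 ^ 2 ≤ 4 * u.h := by
  have h0 : u.h ≠ 0 := by have := c.h5; omega
  have key : ∀ m : ℕ, (m + 1) ^ 2 ≤ 4 * 2 ^ m := by
    intro m
    induction m with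
    | zero => norm_num
    | succ m ih =>
      rcases Nat.lt_or_ge m 2 with hm | hm
      · interval_cases m <;> norm_num
      · have h2 : 4 * 2 ^ (m + 1) = 2 * (4 * 2 ^ m) := by ring
        rw [h2]
        nlinarith
  have h2 := Nat.pow_log_le_self 2 h0
  have h3 := key (Nat.log 2 u.h)
  unfold Un.l1
  omega

theorem l1_le (c : Cb u) : u.l1 ≤ u.h := log_succ_le c.h1

theorem el_le (c : Cb u) : u.el ≤ u.h := by
  have h1 := c.lah
  have h2 := c.l1_le
  have h5 := c.h5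
  have h3 : Nat.log 2 (u.la + u.l1) ≤ Nat.log 2 (u.h * 2) := Nat.log_mono_right (by omega)
  rw [Nat.log_mul_base (by norm_num) (by omega)] at h3
  have h4 : Nat.log 2 u.h + 2 ≤ u.h := by
    have h6 : u.h < 2 ^ (u.h - 1) := by
      have key : ∀ m : ℕ, 5 + m < 2 ^ (4 + m) := by
        intro m
        induction m with
        | zero => norm_num
        | succ m ih =>
          have : 2 ^ (4 + (m + 1)) = 2 * 2 ^ (4 + m) := by ring
          omega
      have := key (u.h - 5)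
      rw [show 5 + (u.h - 5) = u.h by omega, show 4 + (u.h - 5) = u.h - 1 by omega] at this
      exact this
    have h7 := Nat.log_lt_of_lt_pow (b := 2) (by omega) h6
    omega
  unfold Un.el
  omega

theorem sg3_le (c : Cb u) : u.sg ^ 3 ≤ u.h := by
  have h2 := c.two_le_el
  have h3 := c.el_le
  rcases c.le with h | h
  · calc u.sg ^ 3 ≤ u.sg ^ 3 * u.el := Nat.le_mul_of_pos_right _ (el_pos u)
      _ ≤ max u.la u.el := h
      _ ≤ u.h := max_le c.lah h3
  · have h4 : 2 * u.sg ^ 2 ≤ u.l1 := by nlinarith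
    have h5 := c.l1_sq_le
    have h6 : (2 * u.sg ^ 2) ^ 2 ≤ u.l1 ^ 2 := Nat.pow_le_pow_left h4 2
    have h7 : (2 * u.sg ^ 2) ^ 2 = 4 * u.sg ^ 4 := by ring
    have h8 : u.sg ^ 3 ≤ u.sg ^ 4 := Nat.pow_le_pow_right c.s1 (by norm_num)
    omega

theorem sg_le (c : Cb u) : u.sg ≤ u.h :=
  (Nat.le_self_pow (by norm_num) _).trans c.sg3_le

theorem rk_pos (_c : Cb u) : 1 ≤ u.rk := Nat.le_add_left _ _

theorem R_pos (_c : Cb u) : 1 ≤ u.R := Nat.le_add_left _ _

theorem rk_le_R (c : Cb u) : u.rk ≤ u.R := Nat.succ_le_succ (Nat.div_le_div_right c.lah)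

theorem R_le (_c : Cb u) : u.R ≤ u.h + 1 := Nat.succ_le_succ (Nat.div_le_self _ _)

theorem R_le_two (c : Cb u) : u.R ≤ 2 * u.h := by
  have := c.R_le
  have := c.h1
  omega

theorem rk_le (c : Cb u) : u.rk ≤ u.h + 1 := c.rk_le_R.trans c.R_le

theorem h_lt (c : Cb u) : u.h < u.sg * u.R := Nat.lt_mul_div_succ _ c.s1

theorem la_lt (c : Cb u) : u.la < u.sg * u.rk := Nat.lt_mul_div_succ _ c.s1

theorem sg_sq_lt (c : Cb u) : u.sg ^ 2 < u.R := by
  have h1 := c.sg3_le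
  have h2 := c.h_lt
  have h3 : u.sg * u.sg ^ 2 < u.sg * u.R := by
    calc u.sg * u.sg ^ 2 = u.sg ^ 3 := by ring
      _ < u.sg * u.R := lt_of_le_of_lt h1 h2
  exact Nat.lt_of_mul_lt_mul_left h3

theorem sg_le_R (c : Cb u) : u.sg ≤ u.R :=
  ((Nat.le_self_pow (by norm_num) _).trans c.sg_sq_lt.le)

theorem h_le_sq (c : Cb u) : u.h ≤ u.R ^ 2 := by
  have h1 := c.h_lt
  have h2 := c.sg_le_R
  calc u.h ≤ u.sg * u.R := h1.le
    _ ≤ u.R * u.R := Nat.mul_le_mul_right _ h2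
    _ = u.R ^ 2 := by ring

theorem le_two_pow (c : Cb u) : u.h ≤ 2 ^ (2 * u.R) := by
  have h2 := c.h_le_sq
  have h3 : u.R ≤ 2 ^ u.R := Nat.lt_two_pow_self.le
  calc u.h ≤ u.R ^ 2 := h2
    _ ≤ (2 ^ u.R) ^ 2 := Nat.pow_le_pow_left h3 2
    _ = 2 ^ (2 * u.R) := by rw [← pow_mul]; ring_nf

theorem h_le_sp (c : Cb u) : u.h ≤ u.sp :=
  Nat.le_mul_of_pos_right _ (Nat.mul_pos c.s1 (el_pos u))

theorem hel_le_sp (c : Cb u) : u.h * u.el ≤ u.sp :=
  Nat.mul_le_mul_left _ (Nat.le_mul_of_pos_left _ c.s1)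

theorem hsg_le_sp (_c : Cb u) : u.h * u.sg ≤ u.sp :=
  Nat.mul_le_mul_left _ (Nat.le_mul_of_pos_right _ (el_pos u))

/-- `S m h` is small. -/
theorem stages_le (_c : Cb u) {S m C C' : ℕ} (hS : S ≤ C * u.sg)
    (hm : m ≤ C' * u.el) : S * m * u.h ≤ C * C' * u.sp := by
  calc S * m * u.h ≤ (C * u.sg) * (C' * u.el) * u.h := by gcongr
    _ = C * C' * u.sp := by unfold Un.sp; ring

theorem la_div_le (c : Cb u) : u.la / u.sg ≤ 8 * u.sg ^ 2 * u.el := by
  have h1 := c.lt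
  have h2 := c.s1
  have h3 : (u.sg + 1) ^ 3 ≤ (2 * u.sg) ^ 3 := Nat.pow_le_pow_left (by omega) 3
  have h4 : u.la ≤ u.sg * (8 * u.sg ^ 2 * u.el) := by
    calc u.la ≤ (u.sg + 1) ^ 3 * u.el := h1.le
      _ ≤ (2 * u.sg) ^ 3 * u.el := Nat.mul_le_mul_right _ h3
      _ = u.sg * (8 * u.sg ^ 2 * u.el) := by ring
  exact Nat.div_le_of_le_mul h4

theorem rk_R_le (c : Cb u) : u.rk * u.R ≤ 11 * u.sp := by
  have h1 := c.la_div_le
  have h2 : u.sg * (u.h / u.sg) ≤ u.h := Nat.mul_div_le _ _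
  have h3 := c.h_le_sp
  have h4 : u.la / u.sg ≤ u.h := (Nat.div_le_self _ _).trans c.lah
  have h5 : u.h / u.sg ≤ u.h := Nat.div_le_self _ _
  have h6 := c.h1
  have h7 : (u.la / u.sg) * (u.h / u.sg) ≤ 8 * u.sp := by
    calc (u.la / u.sg) * (u.h / u.sg) ≤ (8 * u.sg ^ 2 * u.el) * (u.h / u.sg) :=
          Nat.mul_le_mul_right _ h1
      _ = 8 * u.sg * u.el * (u.sg * (u.h / u.sg)) := by ring
      _ ≤ 8 * u.sg * u.el * u.h := Nat.mul_le_mul_left _ h2
      _ = 8 * u.sp := by unfold Un.sp; ring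
  calc u.rk * u.R = (u.la / u.sg) * (u.h / u.sg) + u.la / u.sg + u.h / u.sg + 1 := by
        unfold Un.rk Un.R; ring
    _ ≤ 11 * u.sp := by omega

end Cb

/-! ### The number of doublings -/

/-- The number of doublings of a stage. -/
def rr (e : ℕ) (u : Un) : ℕ := u.rk + Nat.log 2 u.R + e

theorem rk_le_rr (e : ℕ) (u : Un) : u.rk ≤ rr e u := by unfold rr; omega

theorem rr_pos (e : ℕ) {u : Un} (c : Cb u) : 1 ≤ rr e u := c.rk_pos.trans (rk_le_rr e u)

theorem rr_le {e : ℕ} {u : Un} (c : Cb u) : rr e u ≤ (e + 2) * u.R := by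
  have h1 := log_succ_le c.R_pos
  have h2 := c.rk_le_R
  have h3 := c.R_pos
  unfold rr
  nlinarith

/-- `log h` times `R` is small. -/
theorem Cb.l1_R_le {u : Un} (c : Cb u) : u.l1 * u.R ≤ 5 * u.sp := by
  have h1 : u.l1 ≤ 4 * u.sg ^ 2 * u.el := by
    have h2 := c.lt2
    have h3 : (u.sg + 1) ^ 2 ≤ (2 * u.sg) ^ 2 := Nat.pow_le_pow_left (by have := c.s1; omega) 2
    calc u.l1 ≤ (u.sg + 1) ^ 2 * u.el := h2.le
      _ ≤ (2 * u.sg) ^ 2 * u.el := Nat.mul_le_mul_right _ h3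
      _ = 4 * u.sg ^ 2 * u.el := by ring
  have h2 : u.sg * (u.h / u.sg) ≤ u.h := Nat.mul_div_le _ _
  have h3 := c.l1_le
  have h4 := c.h_le_sp
  have h5 : u.l1 * (u.h / u.sg) ≤ 4 * u.sp := by
    calc u.l1 * (u.h / u.sg) ≤ (4 * u.sg ^ 2 * u.el) * (u.h / u.sg) := Nat.mul_le_mul_right _ h1
      _ = 4 * u.sg * u.el * (u.sg * (u.h / u.sg)) := by ring
      _ ≤ 4 * u.sg * u.el * u.h := Nat.mul_le_mul_left _ h2
      _ = 4 * u.sp := by unfold Un.sp; ring
  calc u.l1 * u.R = u.l1 * (u.h / u.sg) + u.l1 := by unfold Un.R; ring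
    _ ≤ 5 * u.sp := by omega

/-- `r R` is small. -/
theorem rr_R_le {e : ℕ} {u : Un} (c : Cb u) : rr e u * u.R ≤ (2 * e + 21) * u.sp := by
  have h1 := c.rk_R_le
  have h2 := c.R_le_two
  have h3 := c.h_le_sp
  have h4 := c.h1
  have h5 : Nat.log 2 u.R ≤ 2 * u.l1 := by
    have h6 := Nat.log_mono_right (b := 2) h2
    have h7 : Nat.log 2 (2 * u.h) = Nat.log 2 u.h + 1 := by
      rw [mul_comm]
      exact Nat.log_mul_base (by norm_num) (by omega)
    unfold Un.l1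
    omega
  have h6 := c.l1_R_le
  calc rr e u * u.R = u.rk * u.R + Nat.log 2 u.R * u.R + e * u.R := by unfold rr; ring
    _ ≤ 11 * u.sp + 2 * u.l1 * u.R + e * (2 * u.sp) := by
        apply Nat.add_le_add (Nat.add_le_add h1 (Nat.mul_le_mul_right _ h5))
        exact Nat.mul_le_mul_left _ (h2.trans (Nat.mul_le_mul_left _ h3))
    _ ≤ 11 * u.sp + 10 * u.sp + e * (2 * u.sp) := by
        have : 2 * u.l1 * u.R = 2 * (u.l1 * u.R) := by ring
        omega
    _ = (2 * e + 21) * u.sp := by ring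

/-- `r - rk` is logarithmic, but large. -/
theorem two_pow_diff {e : ℕ} (u : Un) (he : 1 ≤ e) :
    2 ^ (e - 1) * (u.R + 1) ≤ 2 ^ (rr e u - u.rk) := by
  have h1 : u.R + 1 ≤ 2 ^ (Nat.log 2 u.R + 1) := Nat.lt_pow_succ_log_self (by norm_num) _
  have h2 : rr e u - u.rk = (e - 1) + (Nat.log 2 u.R + 1) := by unfold rr; omega
  rw [h2, pow_add]
  exact Nat.mul_le_mul_left _ h1

theorem two_pow_diff' {e C a : ℕ} (u : Un) (he : 1 ≤ e)
    (hC : C * (a + 1) ≤ 2 ^ (e - 1)) :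
    C * (a * u.R + 1) ≤ 2 ^ (rr e u - u.rk) := by
  have h1 := two_pow_diff u he
  calc C * (a * u.R + 1) ≤ C * ((a + 1) * (u.R + 1)) := Nat.mul_le_mul_left _ (by nlinarith)
    _ = C * (a + 1) * (u.R + 1) := by ring
    _ ≤ 2 ^ (e - 1) * (u.R + 1) := Nat.mul_le_mul_right _ hC
    _ ≤ _ := h1

end Vale.Agent.P313.H427L
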