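import Vale.Agent.P313.H427L.Par3
import Vale.Agent.P313.H126.Count
import Vale.Agent.P313.H899.Master

/-!
The environment, the number of seeds and the space bounds.
-/

namespace Vale.Agent.P313.H427L

open Sel (LFx)

/-- `B = 2 ^ (cB * h)`. -/
abbrev cB : ℕ := 2000000000

section mach

variable {M : RTM} {c : Cf}

/-- The bound for registers. -/
noncomputable def Bx (M : RTM) (c : Cf) (x : List Bool) : ℕ := 2 ^ (cB * hh M c x)

theorem lfx_B : LFx (Bx M c) :=
  lfx_two_pow (M := M) (c := c) (LF.mul (LF.const cB) lfx_hh) (d := cB) (fun _ => le_rfl)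

theorem parx_D (x : List Bool) : (parx M c x).D = pD (hh M c x) := by simp only [parx, thePar, ux_h]

theorem parx_S (x : List Bool) : (parx M c x).S = pS (ux M c x) := by
  simp only [parx, thePar, ux_h]

theorem parx_Q (x : List Bool) : (parx M c x).Q = Qf (hh M c x) := by simp only [parx, thePar, ux_h]

theorem parx_DC (x : List Bool) : (parx M c x).DC = pDC (ux M c x) := by
  simp only [parx, thePar, ux_h]

theorem parx_lw (x : List Bool) : (parx M c x).lw = plw (ux M c x) := by
  simp only [parx, thePar, ux_h]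

theorem parx_m (x : List Bool) : (parx M c x).m = pm (ux M c x) := by
  simp only [parx, thePar, BP.Par2.m, BP.nph, pm, ux_h]

theorem parx_L (x : List Bool) : (parx M c x).L = pL (ux M c x) := by
  simp only [parx, thePar, BP.Par2.L, BP.lab, pL]

theorem parx_q (x : List Bool) : (parx M c x).q = qf (ux M c x) := by simp only [parx, thePar, ux_h]

/-- The number of seeds, cut off, is computable. -/
theorem lf_nSd : LF (fun x a => min (H126.nSd (parx M c x)) (a 0 + 1) : Fn 1) := by
  have hD : LF (fun x _ => pD (hh M c x) : Fn 1) := (lfx_D (M := M) (c := c)).lf 1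
  have hQ : LF (fun x _ => Qf (hh M c x) : Fn 1) := (lfx_Q (M := M) (c := c)).lf 1
  have hS : LF (fun x _ => 3 * pS (ux M c x) : Fn 1) :=
    (LF.const 3).mul ((lfx_S (M := M) (c := c)).lf 1)
  have hl : LF (fun x _ => 2 * pDC (ux M c x) +
      2 * plw (ux M c x) : Fn 1) :=
    ((LF.const 2).mul ((lfx_DC (M := M) (c := c)).lf 1)).add
      ((LF.const 2).mul ((lfx_lw (M := M) (c := c)).lf 1))
  have h1 := (Q.lf_powMin hD hS (LF.proj 0)).mul (Q.lf_powMin hQ hl (LF.proj 0))
  refine (LF.min h1 (LF.proj 0).succ).congr (fun x a => ?_)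
  have e : H126.nSd (parx M c x) = pD (hh M c x) ^ (3 * pS (ux M c x)) *
      Qf (hh M c x) ^ (2 * pDC (ux M c x) +
        2 * plw (ux M c x)) := by
    unfold H126.nSd
    rw [parx_D, parx_S, parx_Q, parx_DC, parx_lw]
  rw [e]
  have hA : 1 ≤ pD (hh M c x) ^ (3 * pS (ux M c x)) :=
    Nat.one_le_pow _ _ (PP.D_pos _)
  have hB : 1 ≤ Qf (hh M c x) ^ (2 * pDC (ux M c x) +
        2 * plw (ux M c x)) := Nat.one_le_pow _ _ (ppx (M := M) (c := c) x).Q_pos
  generalize pD (hh M c x) ^ (3 * pS (ux M c x)) = A at *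
  generalize Qf (hh M c x) ^ (2 * pDC (ux M c x) +
        2 * plw (ux M c x)) = B at *
  generalize a 0 = N
  rcases le_or_gt (A * B) N with h | h
  · have h2 : A ≤ A * B := Nat.le_mul_of_pos_right _ hB
    have h3 : B ≤ A * B := Nat.le_mul_of_pos_left _ hA
    rw [min_eq_left (show A ≤ N + 1 by omega), min_eq_left (show B ≤ N + 1 by omega)]
  · rw [min_eq_right (show N + 1 ≤ A * B by omega)]
    apply min_eq_right
    rcases le_or_gt (N + 1) A with h2 | h2
    · rw [min_eq_right h2]
      exact Nat.le_mul_of_pos_right _ (by omega)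
    · rw [min_eq_left h2.le]
      rcases le_or_gt (N + 1) B with h3 | h3
      · rw [min_eq_right h3]
        exact Nat.le_mul_of_pos_left _ hA
      · rw [min_eq_left h3.le]
        exact h

/-- Number of seeds. -/
theorem nSd_le (x : List Bool) :
    H126.nSd (parx M c x) ≤ 2 ^ (60000000000000000 * (ux M c x).sp) := by
  have p := ppx (M := M) (c := c) x
  unfold H126.nSd
  rw [parx_D, parx_S, parx_Q, parx_DC, parx_lw]
  have h1 := p.seeds_le
  have h2 : pD (hh M c x) ^ (3 * pS (ux M c x)) ≤
      2 ^ (312000 * (ux M c x).sp) := by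
    have h3 := p.Sh_le
    rw [ux_h] at h3
    unfold pD
    rw [← pow_mul]
    apply PP.pow_mono
    simp only [cD]
    calc 1000 * hh M c x * (3 * pS (ux M c x))
        = 3000 * (pS (ux M c x) * hh M c x) := by ring
      _ ≤ 3000 * (10 * (ux M c x).sp) := Nat.mul_le_mul_left _ h3
      _ ≤ 312000 * (ux M c x).sp := by omega
  refine (Nat.mul_le_mul h2 h1).trans ?_
  rw [← pow_add]
  apply PP.pow_mono
  simp only [cQ]
  omega

/-- The logarithm of the number of seeds. -/
theorem log_nSd_le (x : List Bool) :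
    Nat.log 2 (H126.nSd (parx M c x)) ≤ 60000000000000000 * (ux M c x).sp := by
  have h1 := Nat.log_mono_right (b := 2) (nSd_le (M := M) (c := c) x)
  rwa [Nat.log_pow (by norm_num)] at h1

/-- The tape. -/
theorem log_tape_le (x : List Bool) :
    (parx M c x).L * (Nat.log 2 (parx M c x).q + 1) ≤ 200000000 * (ux M c x).sp := by
  have p := ppx (M := M) (c := c) x
  rw [parx_L, parx_q]
  have h1 : Nat.log 2 (qf (ux M c x)) ≤ ca * (ux M c x).R + 1 := by
    have h2 : qf (ux M c x) ≤ 2 ^ (ca * (ux M c x).R + 1) := by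
      rw [pow_succ']
      exact p.q2
    have h3 := Nat.log_mono_right (b := 2) h2
    rwa [Nat.log_pow (by norm_num)] at h3
  have h2 := p.r_R_le
  have h3 := p.R_pos
  unfold pL
  calc 310 * pr (ux M c x) * (Nat.log 2 (qf (ux M c x)) + 1)
      ≤ 310 * pr (ux M c x) * (1002 * (ux M c x).R) := by
        apply Nat.mul_le_mul_left
        simp only [ca] at h1
        omega
    _ = 310620 * (pr (ux M c x) * (ux M c x).R) := by ring
    _ ≤ 310620 * (69 * (ux M c x).sp) := Nat.mul_le_mul_left _ h2
    _ ≤ _ := by omega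

/-- The levels. -/
theorem levels_log_le (x : List Bool) :
    ((parx M c x).S * (parx M c x).m + 1) * (Nat.log 2 (x.length + Bx M c x + 2) + 1) ≤
      50000000000000 * (ux M c x).sp := by
  have p := ppx (M := M) (c := c) x
  rw [parx_S, parx_m]
  have h1 : Nat.log 2 (x.length + Bx M c x + 2) + 1 ≤ 2000000002 * hh M c x := by
    have h2 : x.length + Bx M c x + 2 ≤ 2 ^ (2000000000 * hh M c x + 1) := by
      have h3 := len_le (M := M) (c := c) x
      have h4 : 2 ^ hh M c x ≤ 2 ^ (2000000000 * hh M c x) := PP.pow_mono (by omega)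
      have h5 : Bx M c x = 2 ^ (2000000000 * hh M c x) := rfl
      rw [h5, pow_succ]
      omega
    have h3 := Nat.log_mono_right (b := 2) h2
    rw [Nat.log_pow (by norm_num)] at h3
    have h4 := hh_pos (M := M) (c := c) x
    omega
  have h2 := p.levels_le
  have h3 := p.toCb.h_le_sp
  rw [ux_h] at h2 h3
  calc (pS (ux M c x) * pm (ux M c x) + 1) *
        (Nat.log 2 (x.length + Bx M c x + 2) + 1)
      ≤ (pS (ux M c x) * pm (ux M c x) + 1) *
        (2000000002 * hh M c x) := Nat.mul_le_mul_left _ h1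
    _ = 2000000002 * (pS (ux M c x) * pm (ux M c x) *
        hh M c x + hh M c x) := by ring
    _ ≤ 2000000002 * (750 * (ux M c x).sp + 1 * (ux M c x).sp) := by
        apply Nat.mul_le_mul_left
        omega
    _ ≤ _ := by omega

end mach

end Vale.Agent.P313.H427L
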